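import Vale.Agent.P141.PL.H318.Sys1
import Vale.Agent.P141.PL.H317.Kill

/-! The companions `1_{alive_k} (RG k) ∘ el c` of the cost theorem: uniformity, line energies,
line movements. -/

namespace Vale.Agent.P141.PL.H318

noncomputable section

open scoped BigOperators
open Vale.Agent.P141.H315
open Vale.Agent.P141.PL.H315 (cube3 mem_cube3 gz card_cube3 atm e12 e13 e23 wt wt_nonneg wN Nm
  Nm_nonneg Tri avg mx mx_nonneg abs_le_mx sq_mx_le_Nm avg_prod_Nm_le wt_eq card_cube3_pos)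
open Vale.Agent.P141.PL.H95 (gr mem_gr card_gr)

/-! ### Linear functionals of the structured part -/

/-- A linear functional which depends only on the values on a cube of scale `k`, applied to the
structured part: whole atoms. -/
theorem abs_lin_St_le {X ι : Type*} {g : Grid X} (S : CSys g ι) (n : ℕ) (F : X → ℝ) {k : ℕ}
    (hk : k ≤ n + 1) (z : X) (Λ : (X → ℝ) →ₗ[ℝ] ℝ)
    (hΛ : ∀ f f' : X → ℝ, (∀ y ∈ g.cube k z, f y = f' y) → Λ f = Λ f') :
    |Λ (F - RG S n F k)| ≤ ∑ j ∈ Finset.Ico k (n + 1),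
      (bm S j (RH S n F j) (g.cube j z)).sum fun i b => |b| * |Λ (S.a j i)| := by
  classical
  have h1 : Λ (F - RG S n F k) = ∑ j ∈ Finset.Ico k (n + 1),
      Λ (if Alive S n F k j z then cF S j (bm S j (RH S n F j) (g.cube j z)) else 0) := by
    rw [← map_sum]
    refine hΛ _ _ fun y hy => ?_
    rw [Pi.sub_apply, St_eq S n F hk y, Finset.sum_apply]
    refine Finset.sum_congr rfl fun j hj => ?_
    rw [Finset.mem_Ico] at hj
    have hcube : g.cube j y = g.cube j z := g.eq_of_mem j z y (g.sub_le hj.1 z hy)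
    by_cases hA : Alive S n F k j z
    · rw [if_pos hA, if_pos ((Alive_congr S n F hy).mpr hA)]
      unfold birth
      rw [hcube]
    · rw [if_neg hA, if_neg (fun h => hA ((Alive_congr S n F hy).mp h))]
      rfl
  rw [h1]
  refine (Finset.abs_sum_le_sum_abs _ _).trans (Finset.sum_le_sum fun j _ => ?_)
  have h0 : 0 ≤ (bm S j (RH S n F j) (g.cube j z)).sum fun i b => |b| * |Λ (S.a j i)| :=
    Finset.sum_nonneg fun i _ => mul_nonneg (abs_nonneg _) (abs_nonneg _)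
  by_cases hA : Alive S n F k j z
  · rw [if_pos hA]
    have h2 : Λ (cF S j (bm S j (RH S n F j) (g.cube j z))) =
        bsum (fun i => Λ (S.a j i)) (bm S j (RH S n F j) (g.cube j z)) := map_bsum Λ (S.a j) _
    rw [h2]
    unfold bsum Finsupp.sum
    refine (Finset.abs_sum_le_sum_abs _ _).trans (Finset.sum_le_sum fun i _ => ?_)
    simp only [smul_eq_mul, abs_mul, le_refl]
  · rw [if_neg hA, map_zero, abs_zero]; exact h0

/-! ### Lines -/

/-- The values of a nonnegative function on an arithmetic progression of scale `l`. -/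
theorem line_le {c0 : ℕ} {σ : ℤ} {l : ℕ} {h : ℤ → ℝ} (hh : ∀ s, 0 ≤ h s) {B : ℝ}
    (hB : ∀ x, ∑ s ∈ (gr c0 σ).cube l x, h s ≤ B) {c1 : ℤ} (hc : c1 ≠ 0) (hc1 : |c1| ≤ 2 ^ c0)
    (m b : ℤ) : ∑ x ∈ iv l m, h (c1 * x + b) ≤ 2 * B := by
  classical
  set U : Finset ℤ := (iv l m).image fun x => c1 * x + b with hU
  have hinj : Set.InjOn (fun x : ℤ => c1 * x + b) (iv l m) := by
    intro x _ y _ hxy
    have : c1 * x = c1 * y := by simpa using hxy
    exact mul_left_cancel₀ hc this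
  have h1 : ∑ x ∈ iv l m, h (c1 * x + b) = ∑ s ∈ U, h s := by
    rw [hU, Finset.sum_image hinj]
  obtain ⟨m', hm'⟩ := two_cells (c0 := c0) (σ := σ) (k := l) (U := U) (by
    intro s hs s' hs'
    obtain ⟨x, hx, rfl⟩ := Finset.mem_image.mp hs
    obtain ⟨y, hy, rfl⟩ := Finset.mem_image.mp hs'
    unfold iv at hx hy
    rw [Finset.mem_Ico] at hx hy
    have h2 : |x - y| ≤ 2 ^ l - 1 := by rw [abs_le]; constructor <;> omega
    have h3 : c1 * x - c1 * y ≤ 2 ^ c0 * (2 ^ l - 1) := by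
      rw [← mul_sub]
      refine (le_abs_self _).trans ?_
      rw [abs_mul]
      exact mul_le_mul hc1 h2 (abs_nonneg _) (by positivity)
    have h5 : (2 : ℤ) ^ (l + c0) = 2 ^ c0 * 2 ^ l := by rw [pow_add]; ring
    have h6 : (0 : ℤ) < 2 ^ c0 := by positivity
    rw [h5]; nlinarith)
  have hcell : ∀ m'' : ℤ, ∑ s ∈ U, (if ixs c0 σ l s = m'' then h s else 0) ≤ B := by
    intro m''
    rw [← Finset.sum_filter]
    refine le_trans ?_ (hB (2 ^ (l + c0) * m'' - σ))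
    refine Finset.sum_le_sum_of_subset_of_nonneg ?_ fun s _ _ => hh s
    intro s hs
    rw [Finset.mem_filter] at hs
    rw [mem_gs, hs.2]
    unfold ixs
    have h2 : (0 : ℤ) < 2 ^ (l + c0) := by positivity
    rw [show 2 ^ (l + c0) * m'' - σ + σ = 2 ^ (l + c0) * m'' by ring,
      Int.mul_ediv_cancel_left _ h2.ne']
  have h7 : ∑ s ∈ U, h s = ∑ s ∈ U, (if ixs c0 σ l s = m' then h s else 0) +
      ∑ s ∈ U, (if ixs c0 σ l s = m' + 1 then h s else 0) := by
    rw [← Finset.sum_add_distrib]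
    refine Finset.sum_congr rfl fun s hs => ?_
    rcases hm' s hs with h8 | h8
    · have h9 : ixs c0 σ l s ≠ m' + 1 := by omega
      rw [if_pos h8, if_neg h9, add_zero]
    · have h9 : ixs c0 σ l s ≠ m' := by omega
      rw [if_neg h9, if_pos h8, zero_add]
  rw [h1, h7]
  have := hcell m'
  have := hcell (m' + 1)
  linarith

/-! ### Alive points -/

/-- All intervals of scale `k ≤ l ≤ n` containing `s` have average of `f ^ 2` at most `a`. -/
def alv (c0 : ℕ) (σ : ℤ) (n : ℕ) (f : ℤ → ℝ) (a : ℝ) (k : ℕ) (s : ℤ) : Prop :=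
  ∀ l, k ≤ l → l ≤ n → dot ((gr c0 σ).cube l s) f f ≤ a * 2 ^ (l + c0)

section alv

variable {c0 : ℕ} {σ : ℤ} {n : ℕ} {f : ℤ → ℝ} {a : ℝ}

theorem alv_congr {k : ℕ} {s s' : ℤ} (h : s' ∈ (gr c0 σ).cube k s) :
    alv c0 σ n f a k s' ↔ alv c0 σ n f a k s := by
  unfold alv
  refine forall_congr' fun l => forall_congr' fun hl => forall_congr' fun _ => ?_
  rw [(gr c0 σ).eq_of_mem l s s' ((gr c0 σ).sub_le hl s h)]

theorem alv.mono {k k' : ℕ} {s : ℤ} (h : alv c0 σ n f a k s) (hk : k ≤ k') :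
    alv c0 σ n f a k' s := fun l h1 h2 => h l (by omega) h2

/-- A point which is dead at scale `l` is dead at all finer scales. -/
theorem alv_of_le {k l : ℕ} (hkl : k ≤ l) {x s : ℤ} (hs : s ∈ (gr c0 σ).cube l x)
    (h : alv c0 σ n f a k s) : alv c0 σ n f a l x := (alv_congr hs).mp (h.mono hkl)

end alv

open Classical in
/-- The path with kills. -/
def kp (c0 : ℕ) (σ : ℤ) (n : ℕ) (f : ℤ → ℝ) (a : ℝ) (G : ℕ → ℤ → ℝ) (k : ℕ) (s : ℤ) : ℝ :=
  if alv c0 σ n f a k s then G k s else 0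

section path

variable {c0 : ℕ} {σ : ℤ} {n : ℕ} {f : ℤ → ℝ} {a : ℝ} {G : ℕ → ℤ → ℝ}

theorem kp_of_alv {k : ℕ} {s : ℤ} (h : alv c0 σ n f a k s) : kp c0 σ n f a G k s = G k s := by
  unfold kp; rw [if_pos h]

theorem kp_of_not {k : ℕ} {s : ℤ} (h : ¬ alv c0 σ n f a k s) : kp c0 σ n f a G k s = 0 := by
  unfold kp; rw [if_neg h]

theorem kp_sq_le (k : ℕ) (s : ℤ) : kp c0 σ n f a G k s ^ 2 ≤ G k s ^ 2 := by
  by_cases h : alv c0 σ n f a k s
  · rw [kp_of_alv h]
  · rw [kp_of_not h, zero_pow (by norm_num)]; exact sq_nonneg _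

/-- Energy of the path on the intervals of scale `l`. -/
theorem kp_energy {E : ℝ} (ha : 0 ≤ a) (hE0 : 0 ≤ E)
    (hE : ∀ k l, k ≤ l → l ≤ n → ∀ x, dot ((gr c0 σ).cube l x) (G k) (G k) ≤
      E * dot ((gr c0 σ).cube l x) f f) {k l : ℕ} (hkl : k ≤ l) (hl : l ≤ n) (x : ℤ) :
    ∑ s ∈ (gr c0 σ).cube l x, kp c0 σ n f a G k s ^ 2 ≤ E * a * 2 ^ (l + c0) := by
  by_cases h : alv c0 σ n f a l x
  · have h1 := hE k l hkl hl x
    have h2 := h l le_rfl hl
    have h3 : ∑ s ∈ (gr c0 σ).cube l x, kp c0 σ n f a G k s ^ 2 ≤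
        dot ((gr c0 σ).cube l x) (G k) (G k) := by
      unfold dot
      refine Finset.sum_le_sum fun s _ => ?_
      rw [← sq]; exact kp_sq_le k s
    have h4 := mul_le_mul_of_nonneg_left h2 hE0
    linarith
  · have h1 : ∑ s ∈ (gr c0 σ).cube l x, kp c0 σ n f a G k s ^ 2 = 0 := by
      refine Finset.sum_eq_zero fun s hs => ?_
      rw [kp_of_not (fun h' => h (alv_of_le hkl hs h'))]; ring
    rw [h1]; positivity

open Classical in
/-- The kill time in the time `l - k`, at most `N`. -/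
def kt (c0 : ℕ) (σ : ℤ) (n : ℕ) (f : ℤ → ℝ) (a : ℝ) (l N : ℕ) (s : ℤ) : ℕ :=
  Nat.find (p := fun t => ¬ alv c0 σ n f a (l - t) s ∨ t = N) ⟨N, Or.inr rfl⟩

theorem kp_eq_killed {l N t : ℕ} (ht : t < N) (s : ℤ) :
    kp c0 σ n f a G (l - t) s =
      H317.killed (kt c0 σ n f a l N) (fun t s => G (l - t) s) t s := by
  classical
  unfold H317.killed kt
  by_cases h : alv c0 σ n f a (l - t) s
  · rw [kp_of_alv h, if_pos]
    rw [Nat.lt_find_iff]
    rintro m hm (h1 | h1)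
    · exact h1 (h.mono (by omega))
    · omega
  · rw [kp_of_not h, if_neg]
    rw [Nat.lt_find_iff]
    intro h1
    exact h1 t le_rfl (Or.inl h)

/-- Windows of the path on the intervals of scale `l`, base case `l ≤ 2 ^ J`. -/
theorem kp_window0 {E D : ℝ} (ha : 0 ≤ a) (hE0 : 0 ≤ E) (hD0 : 0 ≤ D)
    (hE : ∀ k l, k ≤ l → l ≤ n → ∀ x, dot ((gr c0 σ).cube l x) (G k) (G k) ≤
      E * dot ((gr c0 σ).cube l x) f f)
    (hD : ∀ l ≤ n, ∀ J j, j < J → ∀ x, ∑ i ∈ Finset.range (2 ^ (J - 1 - j)),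
      ∑ s ∈ (gr c0 σ).cube l x, (G (l - (2 * i + 1) * 2 ^ j) s - G (l - 2 * i * 2 ^ j) s) ^ 2 ≤
        D * dot ((gr c0 σ).cube l x) f f)
    {l : ℕ} (hl : l ≤ n) {J j : ℕ} (hj : j < J) (x : ℤ) :
    ∑ i ∈ Finset.range (2 ^ (J - 1 - j)), ∑ s ∈ (gr c0 σ).cube l x,
      (kp c0 σ n f a G (l - min ((2 * i + 1) * 2 ^ j) l) s -
        kp c0 σ n f a G (l - min (2 * i * 2 ^ j) l) s) ^ 2 ≤
      (3 * E + (1 + 3 * J * (J + 1)) * D) * a * 2 ^ (l + c0) := by
  by_cases h : alv c0 σ n f a l x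
  · have h2 := h l le_rfl hl
    have key := H317.killed_window ((gr c0 σ).cube l x) (ω := fun _ => 1)
      (fun _ _ => zero_le_one) (fun t s => G (l - t) s) (kt c0 σ n f a l (2 ^ J + l + 1)) J
      (D := D * dot ((gr c0 σ).cube l x) f f) (E := E * dot ((gr c0 σ).cube l x) f f)
      (fun j hj => by
        simp only [one_mul]
        exact hD l hl J j hj x)
      (by
        simp only [one_mul, Nat.sub_zero]
        refine le_trans (le_of_eq ?_) (hE l l le_rfl hl x)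
        unfold dot
        exact Finset.sum_congr rfl fun s _ => by ring) j hj
    have hb : ∀ i ∈ Finset.range (2 ^ (J - 1 - j)), (2 * i + 1) * 2 ^ j < 2 ^ J + l + 1 ∧
        2 * i * 2 ^ j < 2 ^ J + l + 1 := by
      intro i hi
      rw [Finset.mem_range] at hi
      have h3 : (2 * i + 1) * 2 ^ j ≤ 2 ^ J := by
        calc (2 * i + 1) * 2 ^ j ≤ (2 * 2 ^ (J - 1 - j)) * 2 ^ j := by gcongr; omega
          _ = 2 ^ J := by rw [← pow_succ', ← pow_add]; congr 1; omega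
      have h4 : 2 * i * 2 ^ j ≤ (2 * i + 1) * 2 ^ j := by gcongr; omega
      omega
    have h5 : ∑ i ∈ Finset.range (2 ^ (J - 1 - j)), ∑ s ∈ (gr c0 σ).cube l x,
        (kp c0 σ n f a G (l - min ((2 * i + 1) * 2 ^ j) l) s -
          kp c0 σ n f a G (l - min (2 * i * 2 ^ j) l) s) ^ 2 ≤
        3 * (E * dot ((gr c0 σ).cube l x) f f) +
          (1 + 3 * J * (J + 1)) * (D * dot ((gr c0 σ).cube l x) f f) := by
      refine le_trans (le_of_eq ?_) key
      refine Finset.sum_congr rfl fun i hi => Finset.sum_congr rfl fun s _ => ?_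
      have e1 : l - min ((2 * i + 1) * 2 ^ j) l = l - (2 * i + 1) * 2 ^ j := by omega
      have e2 : l - min (2 * i * 2 ^ j) l = l - 2 * i * 2 ^ j := by omega
      rw [e1, e2, kp_eq_killed (hb i hi).1, kp_eq_killed (hb i hi).2, one_mul]
    have h6 : 0 ≤ 3 * E + (1 + 3 * (J : ℝ) * (J + 1)) * D := by positivity
    have h7 := mul_le_mul_of_nonneg_left h2 h6
    linarith
  · have h1 : ∑ i ∈ Finset.range (2 ^ (J - 1 - j)), ∑ s ∈ (gr c0 σ).cube l x,
      (kp c0 σ n f a G (l - min ((2 * i + 1) * 2 ^ j) l) s -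
        kp c0 σ n f a G (l - min (2 * i * 2 ^ j) l) s) ^ 2 = 0 := by
      refine Finset.sum_eq_zero fun i _ => Finset.sum_eq_zero fun s hs => ?_
      rw [kp_of_not (fun h' => h (alv_of_le (Nat.sub_le _ _) hs h')),
        kp_of_not (fun h' => h (alv_of_le (Nat.sub_le _ _) hs h'))]
      ring
    rw [h1]; positivity

/-- Windows of the path on the intervals of scale `l ≤ n ≤ 2 ^ J0`, no dependence on `J`. -/
theorem kp_window {E D : ℝ} (ha : 0 ≤ a) (hE0 : 0 ≤ E) (hD0 : 0 ≤ D)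
    (hE : ∀ k l, k ≤ l → l ≤ n → ∀ x, dot ((gr c0 σ).cube l x) (G k) (G k) ≤
      E * dot ((gr c0 σ).cube l x) f f)
    (hD : ∀ l ≤ n, ∀ J j, j < J → ∀ x, ∑ i ∈ Finset.range (2 ^ (J - 1 - j)),
      ∑ s ∈ (gr c0 σ).cube l x, (G (l - (2 * i + 1) * 2 ^ j) s - G (l - 2 * i * 2 ^ j) s) ^ 2 ≤
        D * dot ((gr c0 σ).cube l x) f f)
    {J0 : ℕ} (hJ0 : n ≤ 2 ^ J0) {l : ℕ} (hl : l ≤ n) (J j : ℕ) (x : ℤ) :
    ∑ i ∈ Finset.range (2 ^ (J - 1 - j)), ∑ s ∈ (gr c0 σ).cube l x,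
      (kp c0 σ n f a G (l - min ((2 * i + 1) * 2 ^ j) l) s -
        kp c0 σ n f a G (l - min (2 * i * 2 ^ j) l) s) ^ 2 ≤
      (4 * E + (1 + 3 * J0 * (J0 + 1)) * D) * a * 2 ^ (l + c0) := by
  set φ : ℕ → ℝ := fun i => ∑ s ∈ (gr c0 σ).cube l x,
      (kp c0 σ n f a G (l - min ((2 * i + 1) * 2 ^ j) l) s -
        kp c0 σ n f a G (l - min (2 * i * 2 ^ j) l) s) ^ 2 with hφ
  have hφ0 : ∀ i, 0 ≤ φ i := fun i => Finset.sum_nonneg fun s _ => sq_nonneg _
  have hz : ∀ i, l ≤ 2 * i * 2 ^ j → φ i = 0 := by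
    intro i hi
    refine Finset.sum_eq_zero fun s _ => ?_
    have h1 : l ≤ (2 * i + 1) * 2 ^ j := hi.trans (by gcongr; omega)
    rw [min_eq_right hi, min_eq_right h1, sub_self]
    ring
  rcases Nat.lt_or_ge j J0 with hj | hj
  · have h1 : ∑ i ∈ Finset.range (2 ^ (J - 1 - j)), φ i ≤
        ∑ i ∈ Finset.range (2 ^ (J0 - 1 - j)), φ i := by
      have h2 : ∀ i ∈ Finset.range (2 ^ (J - 1 - j)), i ∉ Finset.range (2 ^ (J0 - 1 - j)) →
          φ i = 0 := by
        intro i _ hi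
        rw [Finset.mem_range, not_lt] at hi
        refine hz i ?_
        calc l ≤ 2 ^ J0 := hl.trans hJ0
          _ = 2 * 2 ^ (J0 - 1 - j) * 2 ^ j := by
            rw [← pow_succ', ← pow_add]; congr 1; omega
          _ ≤ 2 * i * 2 ^ j := by gcongr
      calc ∑ i ∈ Finset.range (2 ^ (J - 1 - j)), φ i
          = ∑ i ∈ Finset.range (2 ^ (J - 1 - j)) ∩ Finset.range (2 ^ (J0 - 1 - j)), φ i := by
            refine (Finset.sum_subset Finset.inter_subset_left ?_).symm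
            intro i hi hi'
            refine h2 i hi fun h => hi' (Finset.mem_inter.mpr ⟨hi, h⟩)
        _ ≤ _ := Finset.sum_le_sum_of_subset_of_nonneg Finset.inter_subset_right
            fun i _ _ => hφ0 i
    refine h1.trans ((kp_window0 ha hE0 hD0 hE hD hl hj x).trans ?_)
    have : 0 ≤ E * a * 2 ^ (l + c0) := by positivity
    nlinarith
  · have h1 : ∑ i ∈ Finset.range (2 ^ (J - 1 - j)), φ i = φ 0 := by
      refine Finset.sum_eq_single_of_mem 0 (Finset.mem_range.mpr (by positivity)) ?_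
      intro i _ hi
      refine hz i ?_
      have h2 : 1 ≤ i := Nat.one_le_iff_ne_zero.mpr hi
      calc l ≤ 2 ^ J0 := hl.trans hJ0
        _ ≤ 2 ^ j := Nat.pow_le_pow_right (by norm_num) hj
        _ ≤ 2 * i * 2 ^ j := Nat.le_mul_of_pos_left _ (by omega)
    rw [h1]
    have h3 : φ 0 ≤ 2 * (E * a * 2 ^ (l + c0)) + 2 * (E * a * 2 ^ (l + c0)) := by
      have e1 := kp_energy (a := a) ha hE0 hE (Nat.sub_le l (min ((2 * 0 + 1) * 2 ^ j) l)) hl x
      have e2 := kp_energy (a := a) ha hE0 hE (Nat.sub_le l (min (2 * 0 * 2 ^ j) l)) hl x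
      calc φ 0 ≤ ∑ s ∈ (gr c0 σ).cube l x,
          (2 * kp c0 σ n f a G (l - min ((2 * 0 + 1) * 2 ^ j) l) s ^ 2 +
            2 * kp c0 σ n f a G (l - min (2 * 0 * 2 ^ j) l) s ^ 2) := by
            refine Finset.sum_le_sum fun s _ => ?_
            nlinarith [sq_nonneg (kp c0 σ n f a G (l - min ((2 * 0 + 1) * 2 ^ j) l) s +
              kp c0 σ n f a G (l - min (2 * 0 * 2 ^ j) l) s)]
        _ = 2 * ∑ s ∈ (gr c0 σ).cube l x,
              kp c0 σ n f a G (l - min ((2 * 0 + 1) * 2 ^ j) l) s ^ 2 +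
            2 * ∑ s ∈ (gr c0 σ).cube l x, kp c0 σ n f a G (l - min (2 * 0 * 2 ^ j) l) s ^ 2 := by
            rw [Finset.sum_add_distrib, Finset.mul_sum, Finset.mul_sum]
        _ ≤ _ := by linarith
    have h4 : 0 ≤ (1 + 3 * (J0 : ℝ) * (J0 + 1)) * D * a * 2 ^ (l + c0) := by positivity
    nlinarith

end path

/-! ### The process gives the hypotheses -/

/-- Windows of `RG` on the intervals of scale `l`. -/
theorem RG_hD {X ι : Type*} {g : Grid X} (S : CSys g ι) (n : ℕ) (F : X → ℝ) (l : ℕ) (J j : ℕ)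
    (hj : j < J) (x : X) :
    ∑ i ∈ Finset.range (2 ^ (J - 1 - j)), ∑ s ∈ g.cube l x,
      (RG S n F (l - (2 * i + 1) * 2 ^ j) s - RG S n F (l - 2 * i * 2 ^ j) s) ^ 2 ≤
        (64 + 32 * S.C) * dot (g.cube l x) F F := by
  classical
  set N := 2 ^ (J - j) with hN
  have hm : Monotone (fun r : ℕ => l - (N - r) * 2 ^ j) := by
    intro r r' h
    have : (N - r') * 2 ^ j ≤ (N - r) * 2 ^ j := by gcongr
    simp only
    omega
  have key := RG_movement S n F x (fun r : ℕ => l - (N - r) * 2 ^ j) hm N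
    (by simp) (l' := l)
  refine le_trans ?_ key
  have hNe : N = 2 * 2 ^ (J - 1 - j) := by
    rw [hN, ← pow_succ']; congr 1; omega
  set ψ : ℕ → ℝ := fun r => dot (g.cube l x)
    (RG S n F (l - (N - (r + 1)) * 2 ^ j) - RG S n F (l - (N - r) * 2 ^ j))
    (RG S n F (l - (N - (r + 1)) * 2 ^ j) - RG S n F (l - (N - r) * 2 ^ j)) with hψ
  have h1 : ∑ i ∈ Finset.range (2 ^ (J - 1 - j)), ∑ s ∈ g.cube l x,
      (RG S n F (l - (2 * i + 1) * 2 ^ j) s - RG S n F (l - 2 * i * 2 ^ j) s) ^ 2 =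
      ∑ i ∈ Finset.range (2 ^ (J - 1 - j)), ψ (N - 1 - 2 * i) := by
    refine Finset.sum_congr rfl fun i hi => ?_
    rw [Finset.mem_range] at hi
    rw [hψ]
    have e1 : N - (N - 1 - 2 * i + 1) = 2 * i := by omega
    have e2 : N - (N - 1 - 2 * i) = 2 * i + 1 := by omega
    simp only [e1, e2]
    unfold dot
    refine Finset.sum_congr rfl fun s _ => ?_
    simp only [Pi.sub_apply]
    ring
  rw [h1]
  have hinj : Set.InjOn (fun i => N - 1 - 2 * i) (Finset.range (2 ^ (J - 1 - j)) : Set ℕ) := by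
    intro i hi i' hi' h
    simp only [Finset.coe_range, Set.mem_Iio] at hi hi'
    simp only at h
    omega
  rw [← Finset.sum_image (f := ψ) hinj]
  refine Finset.sum_le_sum_of_subset_of_nonneg ?_ fun r _ _ => dot_self_nonneg _ _
  intro r hr
  obtain ⟨i, hi, rfl⟩ := Finset.mem_image.mp hr
  rw [Finset.mem_range] at hi ⊢
  omega

/-- The constant of the companions. -/
def LamC (c0 J0 : ℕ) (a : ℝ) : ℝ := 2 ^ (c0 + 1) * (16 + 128 * (1 + 3 * J0 * (J0 + 1))) * a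

/-- **The companions.** -/
theorem comp_RG {c0 : ℕ} {σ : ℤ} {c : Pt} (hc : csz c ≤ 2 ^ c0) (hc1 : c.1 ≠ 0)
    (hc2 : c.2.1 ≠ 0) (hc3 : c.2.2 ≠ 0) {δ e : ℝ} (hδ : 0 < δ) (h0 : 0 ≤ e) (h1 : e ≤ 1)
    (n : ℕ) {J0 : ℕ} (hJ0 : n ≤ 2 ^ J0) (f : ℤ → ℝ) {a : ℝ} (ha : 0 ≤ a) :
    Comp n e (2 * δ) (LamC c0 J0 a) (fun k p =>
      kp c0 σ n f a (RG (sys1 c0 σ c hc δ e hδ h0 h1) n f) k (el c p)) := by
  classical
  set S := sys1 c0 σ c hc δ e hδ h0 h1 with hS
  set G := RG S n f with hG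
  have hE : ∀ k l, k ≤ l → l ≤ n → ∀ x, dot ((gr c0 σ).cube l x) (G k) (G k) ≤
      4 * dot ((gr c0 σ).cube l x) f f := fun k l hkl _ x => RG_le_four S n f hkl x
  have hD : ∀ l ≤ n, ∀ J j, j < J → ∀ x, ∑ i ∈ Finset.range (2 ^ (J - 1 - j)),
      ∑ s ∈ (gr c0 σ).cube l x, (G (l - (2 * i + 1) * 2 ^ j) s - G (l - 2 * i * 2 ^ j) s) ^ 2 ≤
        128 * dot ((gr c0 σ).cube l x) f f := by
    intro l _ J j hj x
    have := RG_hD S n f l J j hj x
    have hC : S.C = 2 := rfl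
    rw [hC] at this
    refine this.trans (le_of_eq ?_)
    ring
  have hcz : ∀ t : ℤ, |t| ≤ csz c → |t| ≤ 2 ^ c0 := fun t ht => ht.trans hc
  have hb1 : |c.1| ≤ 2 ^ c0 := hcz _ (by unfold csz; have := abs_nonneg c.2.1; have := abs_nonneg c.2.2; omega)
  have hb2 : |c.2.1| ≤ 2 ^ c0 := hcz _ (by unfold csz; have := abs_nonneg c.1; have := abs_nonneg c.2.2; omega)
  have hb3 : |c.2.2| ≤ 2 ^ c0 := hcz _ (by unfold csz; have := abs_nonneg c.1; have := abs_nonneg c.2.1; omega)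
  -- energies
  have hEl : ∀ k l, k ≤ l → l ≤ n → ∀ x, ∑ s ∈ (gr c0 σ).cube l x, kp c0 σ n f a G k s ^ 2 ≤
      4 * a * 2 ^ (l + c0) := fun k l hkl hl x => kp_energy ha (by norm_num) hE hkl hl x
  have hEn : ∀ k l, k ≤ l → l ≤ n → ∀ (c1 : ℤ), c1 ≠ 0 → |c1| ≤ 2 ^ c0 → ∀ m b,
      ∑ x ∈ iv l m, kp c0 σ n f a G k (c1 * x + b) ^ 2 ≤ 2 ^ l * LamC c0 J0 a := by
    intro k l hkl hl c1 h2 h3 m b
    refine (line_le (h := fun s => kp c0 σ n f a G k s ^ 2) (fun s => sq_nonneg _)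
      (hEl k l hkl hl) h2 h3 m b).trans ?_
    unfold LamC
    rw [pow_add, pow_succ]
    have : 0 ≤ (J0 : ℝ) := Nat.cast_nonneg _
    have h4 : 0 ≤ (2 : ℝ) ^ l * 2 ^ c0 * a := by positivity
    nlinarith [mul_nonneg h4 this, mul_nonneg (mul_nonneg h4 this) this]
  -- windows
  have hWl : ∀ l ≤ n, ∀ J j x, ∑ s ∈ (gr c0 σ).cube l x, ∑ i ∈ Finset.range (2 ^ (J - 1 - j)),
      (kp c0 σ n f a G (l - min ((2 * i + 1) * 2 ^ j) l) s -
        kp c0 σ n f a G (l - min (2 * i * 2 ^ j) l) s) ^ 2 ≤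
      (4 * 4 + (1 + 3 * J0 * (J0 + 1)) * 128) * a * 2 ^ (l + c0) := by
    intro l hl J j x
    rw [Finset.sum_comm]
    exact kp_window ha (by norm_num) (by norm_num) hE hD hJ0 hl J j x
  have hWn : ∀ l ≤ n, ∀ J j, ∀ (c1 : ℤ), c1 ≠ 0 → |c1| ≤ 2 ^ c0 → ∀ m b,
      ∑ i ∈ Finset.range (2 ^ (J - 1 - j)), ∑ x ∈ iv l m,
      (kp c0 σ n f a G (l - min ((2 * i + 1) * 2 ^ j) l) (c1 * x + b) -
        kp c0 σ n f a G (l - min (2 * i * 2 ^ j) l) (c1 * x + b)) ^ 2 ≤ 2 ^ l * LamC c0 J0 a := by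
    intro l hl J j c1 h2 h3 m b
    rw [Finset.sum_comm]
    refine (line_le (h := fun s => ∑ i ∈ Finset.range (2 ^ (J - 1 - j)),
      (kp c0 σ n f a G (l - min ((2 * i + 1) * 2 ^ j) l) s -
        kp c0 σ n f a G (l - min (2 * i * 2 ^ j) l) s) ^ 2)
      (fun s => Finset.sum_nonneg fun i _ => sq_nonneg _) (hWl l hl J j) h2 h3 m b).trans ?_
    unfold LamC
    rw [pow_add, pow_succ]
    apply le_of_eq
    ring
  refine ⟨?_, ?_, ?_, ?_, ?_, ?_, ?_⟩
  · -- uniformity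
    intro k l hkl hl p u
    have h2 : ∀ q, |∑ y ∈ cube3 k q, kp c0 σ n f a G k (el c y) * atm u y| ≤
        2 * wt δ e (cube3 k q) u := by
      intro q
      exact cube_unif (c0 := c0) (σ := σ) hc hδ.le k (G := G k) (A := alv c0 σ n f a k)
        (fun s s' hs => alv_congr (mem_gs.mpr hs))
        (fun s _ i => RG_unif S n f (hkl.trans hl) s i) q u
    have h3 := cube_unif_coarse (C := 2) hδ.le h0 h1 (by norm_num) hkl
      (φ := fun y => kp c0 σ n f a G k (el c y)) u h2 p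
    rw [wt_eq] at h3
    have hcard := card_cube3_pos l p
    have h4 : wN (2 * δ) e l p u = 2 * wN δ e l p u := by unfold wN; ring
    rw [h4]
    unfold avg
    rw [abs_mul, abs_of_nonneg (inv_nonneg.mpr hcard.le), inv_mul_le_iff₀ hcard]
    refine h3.trans (le_of_eq ?_)
    ring
  · intro k l hkl hl m y z
    refine le_trans (le_of_eq ?_) (hEn k l hkl hl c.1 hc1 hb1 m (c.2.1 * y + c.2.2 * z))
    refine Finset.sum_congr rfl fun x _ => ?_
    unfold el; simp only; rw [add_assoc]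
  · intro k l hkl hl x m z
    refine le_trans (le_of_eq ?_) (hEn k l hkl hl c.2.1 hc2 hb2 m (c.1 * x + c.2.2 * z))
    refine Finset.sum_congr rfl fun y _ => ?_
    have : el c (x, y, z) = c.2.1 * y + (c.1 * x + c.2.2 * z) := by unfold el; simp only; ring
    rw [this]
  · intro k l hkl hl x y m
    refine le_trans (le_of_eq ?_) (hEn k l hkl hl c.2.2 hc3 hb3 m (c.1 * x + c.2.1 * y))
    refine Finset.sum_congr rfl fun z _ => ?_
    have : el c (x, y, z) = c.2.2 * z + (c.1 * x + c.2.1 * y) := by unfold el; simp only; ring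
    rw [this]
  · intro l hl J j _ _ m y z
    refine le_trans (le_of_eq ?_) (hWn l hl J j c.1 hc1 hb1 m (c.2.1 * y + c.2.2 * z))
    refine Finset.sum_congr rfl fun i _ => Finset.sum_congr rfl fun x _ => ?_
    have : el c (x, y, z) = c.1 * x + (c.2.1 * y + c.2.2 * z) := by unfold el; simp only; ring
    rw [this]
  · intro l hl J j _ _ x m z
    refine le_trans (le_of_eq ?_) (hWn l hl J j c.2.1 hc2 hb2 m (c.1 * x + c.2.2 * z))
    refine Finset.sum_congr rfl fun i _ => Finset.sum_congr rfl fun y _ => ?_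
    have : el c (x, y, z) = c.2.1 * y + (c.1 * x + c.2.2 * z) := by unfold el; simp only; ring
    rw [this]
  · intro l hl J j _ _ x y m
    refine le_trans (le_of_eq ?_) (hWn l hl J j c.2.2 hc3 hb3 m (c.1 * x + c.2.1 * y))
    refine Finset.sum_congr rfl fun i _ => Finset.sum_congr rfl fun z _ => ?_
    have : el c (x, y, z) = c.2.2 * z + (c.1 * x + c.2.1 * y) := by unfold el; simp only; ring
    rw [this]

end

end Vale.Agent.P141.PL.H318
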