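import Vale.Agent.P141.H315.Process

/-! Births-only process with homogeneous resets on a grid: tests at every scale, inheritance with
an absolute constant.  Sure window inequality on every cube. -/

namespace Vale.Agent.P141.PL.H318

open scoped BigOperators
open Vale.Agent.P141.H315

variable {X ι : Type*}

/-- A weighted system of tests, depending on the scale, with inheritance up to a constant. -/
structure CSys (g : Grid X) (ι : Type*) where
  /-- the tests (= atoms) of scale `k` -/
  a : ℕ → ι → X → ℝ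
  /-- the weight at scale `k` of a test on a cube -/
  W : ℕ → Finset X → ι → ℝ
  W_nonneg : ∀ k Q i, 0 ≤ W k Q i
  nondeg : ∀ k x, ∃ β : ℝ, 0 < β ∧ ∀ i, β * dot (g.cube k x) (a k i) (a k i) ≤
    W k (g.cube k x) i ^ 2
  /-- the inheritance constant -/
  C : ℝ
  C_nonneg : 0 ≤ C
  inherit : ∀ k l, k ≤ l → ∀ x i, ∀ G : X → ℝ,
    (∀ y ∈ g.cube l x, ∀ i', |dot (g.cube k y) G (a k i')| ≤ W k (g.cube k y) i') →
      |dot (g.cube l x) G (a l i)| ≤ C * W l (g.cube l x) i

variable {g : Grid X}

/-- the births as a function -/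
noncomputable def cF (S : CSys g ι) (k : ℕ) (m : ι →₀ ℝ) : X → ℝ := bsum (S.a k) m

/-- the weighted mass of the births -/
noncomputable def cW (S : CSys g ι) (k : ℕ) (Q : Finset X) (m : ι →₀ ℝ) : ℝ := bcost (S.W k Q) m

theorem cW_nonneg (S : CSys g ι) (k : ℕ) (Q : Finset X) (m : ι →₀ ℝ) : 0 ≤ cW S k Q m :=
  bcost_nonneg (fun _ => S.W_nonneg _ _ _) m

/-- One step on one cube. -/
theorem one_step_csys (S : CSys g ι) (k : ℕ) (x : X) (G : X → ℝ) :
    ∃ m : ι →₀ ℝ, (∀ i, |dot (g.cube k x) (G - cF S k m) (S.a k i)| ≤ S.W k (g.cube k x) i) ∧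
      dot (g.cube k x) (G - cF S k m) (G - cF S k m) + cW S k (g.cube k x) m ≤
        dot (g.cube k x) G G := by
  obtain ⟨β, hβ, hb⟩ := S.nondeg k x
  set Q := g.cube k x with hQ
  obtain ⟨m, h1, h2⟩ := one_step (fun i => toE Q (S.a k i)) (fun i => S.W k Q i) β hβ
    (fun i => S.W_nonneg _ _ _) (fun i => by rw [norm_toE_sq]; exact hb i) (toE Q G)
  have hmap : bsum (fun i => toE Q (S.a k i)) m = toE Q (cF S k m) :=
    (map_bsum (toE Q) _ m).symm
  rw [hmap, ← map_sub] at h2
  rw [norm_toE_sq, norm_toE_sq] at h2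
  refine ⟨m, fun i => ?_, h2⟩
  have := h1 i
  rwa [hmap, ← map_sub, inner_toE] at this

theorem exists_bm (S : CSys g ι) (k : ℕ) (G : X → ℝ) (Q : Finset X) :
    ∃ m : ι →₀ ℝ, ∀ x, g.cube k x = Q →
      (∀ i, |dot Q (G - cF S k m) (S.a k i)| ≤ S.W k Q i) ∧
        dot Q (G - cF S k m) (G - cF S k m) + cW S k Q m ≤ dot Q G G := by
  by_cases hQ : ∃ x, g.cube k x = Q
  · obtain ⟨x, rfl⟩ := hQ
    obtain ⟨m, hm⟩ := one_step_csys S k x G
    exact ⟨m, fun _ _ => hm⟩
  · exact ⟨0, fun x hx => absurd ⟨x, hx⟩ hQ⟩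

/-- A choice of births. -/
noncomputable def bm0 (S : CSys g ι) (k : ℕ) (G : X → ℝ) (Q : Finset X) : ι →₀ ℝ :=
  (exists_bm S k G Q).choose

/-- The births of scale `k` on the cube `Q` for the function `G`; only the values of `G` on `Q`
matter. -/
noncomputable def bm (S : CSys g ι) (k : ℕ) (G : X → ℝ) (Q : Finset X) : ι →₀ ℝ :=
  bm0 S k ((Q : Set X).indicator G) Q

theorem bm_congr (S : CSys g ι) (k : ℕ) {G G' : X → ℝ} {Q : Finset X}
    (h : ∀ y ∈ Q, G y = G' y) : bm S k G Q = bm S k G' Q := by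
  have : (Q : Set X).indicator G = (Q : Set X).indicator G' := by
    funext y
    by_cases hy : y ∈ (Q : Set X)
    · rw [Set.indicator_of_mem hy, Set.indicator_of_mem hy]; exact h y hy
    · rw [Set.indicator_of_notMem hy, Set.indicator_of_notMem hy]
  unfold bm
  rw [this]

theorem bm0_spec (S : CSys g ι) (k : ℕ) (G : X → ℝ) (x : X) :
    (∀ i, |dot (g.cube k x) (G - cF S k (bm0 S k G (g.cube k x))) (S.a k i)| ≤
      S.W k (g.cube k x) i) ∧
      dot (g.cube k x) (G - cF S k (bm0 S k G (g.cube k x)))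
        (G - cF S k (bm0 S k G (g.cube k x))) + cW S k (g.cube k x) (bm0 S k G (g.cube k x)) ≤
        dot (g.cube k x) G G :=
  (exists_bm S k G (g.cube k x)).choose_spec x rfl

theorem bm_spec (S : CSys g ι) (k : ℕ) (G : X → ℝ) (x : X) :
    (∀ i, |dot (g.cube k x) (G - cF S k (bm S k G (g.cube k x))) (S.a k i)| ≤
      S.W k (g.cube k x) i) ∧
      dot (g.cube k x) (G - cF S k (bm S k G (g.cube k x)))
        (G - cF S k (bm S k G (g.cube k x))) + cW S k (g.cube k x) (bm S k G (g.cube k x)) ≤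
        dot (g.cube k x) G G := by
  set Q := g.cube k x with hQ
  have h := bm0_spec S k ((Q : Set X).indicator G) x
  rw [← hQ] at h
  have hc : ∀ m : ι →₀ ℝ, ∀ y ∈ Q, ((Q : Set X).indicator G - cF S k m) y =
      (G - cF S k m) y := by
    intro m y hy
    have : y ∈ (Q : Set X) := hy
    simp [Set.indicator_of_mem this]
  have hc' : ∀ y ∈ Q, ((Q : Set X).indicator G) y = G y := by
    intro y hy
    have : y ∈ (Q : Set X) := hy
    simp [Set.indicator_of_mem this]
  refine ⟨fun i => ?_, ?_⟩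
  · have := h.1 i
    rwa [dot_congr (hc _) (fun _ _ => rfl)] at this
  · have := h.2
    rw [dot_congr hc' hc'] at this
    rwa [dot_congr (hc _) (hc _)] at this

/-- One global step of births. -/
noncomputable def T (S : CSys g ι) (k : ℕ) (G : X → ℝ) : X → ℝ :=
  fun x => G x - cF S k (bm S k G (g.cube k x)) x

theorem T_eq_on (S : CSys g ι) (k : ℕ) (G : X → ℝ) (x : X) :
    ∀ y ∈ g.cube k x, T S k G y = (G - cF S k (bm S k G (g.cube k x))) y := by
  intro y hy
  unfold T
  rw [g.eq_of_mem k x y hy]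
  rfl

theorem T_congr (S : CSys g ι) (k : ℕ) {G G' : X → ℝ} (x : X)
    (h : ∀ y ∈ g.cube k x, G y = G' y) : ∀ y ∈ g.cube k x, T S k G y = T S k G' y := by
  intro y hy
  rw [T_eq_on S k G x y hy, T_eq_on S k G' x y hy, bm_congr S k h]
  simp only [Pi.sub_apply]
  rw [h y hy]

theorem T_unif (S : CSys g ι) (k : ℕ) (G : X → ℝ) (x : X) (i : ι) :
    |dot (g.cube k x) (T S k G) (S.a k i)| ≤ S.W k (g.cube k x) i := by
  rw [dot_congr (T_eq_on S k G x) (fun _ _ => rfl)]
  exact (bm_spec S k G x).1 i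

theorem T_energy (S : CSys g ι) (k : ℕ) (G : X → ℝ) (x : X) :
    dot (g.cube k x) (T S k G) (T S k G) + cW S k (g.cube k x) (bm S k G (g.cube k x)) ≤
      dot (g.cube k x) G G := by
  rw [dot_congr (T_eq_on S k G x) (T_eq_on S k G x)]
  exact (bm_spec S k G x).2

theorem T_energy_le (S : CSys g ι) (k : ℕ) (G : X → ℝ) (x : X) :
    dot (g.cube k x) (T S k G) (T S k G) ≤ dot (g.cube k x) G G := by
  have h1 := T_energy S k G x
  have h2 := cW_nonneg S k (g.cube k x) (bm S k G (g.cube k x))
  linarith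

/-- Density of the weighted mass of births. -/
noncomputable def den (S : CSys g ι) (j : ℕ) (G : X → ℝ) (x : X) : ℝ :=
  cW S j (g.cube j x) (bm S j G (g.cube j x)) / (g.cube j x).card

theorem den_nonneg (S : CSys g ι) (j : ℕ) (G : X → ℝ) (x : X) : 0 ≤ den S j G x :=
  div_nonneg (cW_nonneg S _ _ _) (Nat.cast_nonneg _)

theorem sum_den (S : CSys g ι) (j : ℕ) (G : X → ℝ) (x : X) :
    ∑ z ∈ g.cube j x, den S j G z = cW S j (g.cube j x) (bm S j G (g.cube j x)) := by
  have h : ∀ z ∈ g.cube j x, den S j G z = den S j G x := by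
    intro z hz
    unfold den
    rw [g.eq_of_mem j x z hz]
  rw [Finset.sum_congr rfl h, Finset.sum_const, nsmul_eq_mul]
  unfold den
  have : (0 : ℝ) < (g.cube j x).card := by
    exact_mod_cast Finset.card_pos.mpr ⟨x, g.mem j x⟩
  field_simp

/-! ### Births-only chains -/

/-- `V` evolves by births only for the indices in `[k, l)`. -/
def IsChain' (S : CSys g ι) (k l : ℕ) (V : ℕ → X → ℝ) : Prop :=
  ∀ j, k ≤ j → j < l → V j = T S j (V (j + 1))

section chain

variable {S : CSys g ι} {V : ℕ → X → ℝ} {k l : ℕ}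

theorem IsChain'.mono (h : IsChain' S k l V) {k' l' : ℕ} (hk : k ≤ k') (hl : l' ≤ l) :
    IsChain' S k' l' V := fun j h1 h2 => h j (by omega) (by omega)

theorem IsChain'.energy_window (h : IsChain' S k l V) (hkl : k ≤ l) {l' : ℕ} (hll : l ≤ l')
    (x : X) :
    dot (g.cube l' x) (V k) (V k) +
      ∑ j ∈ Finset.Ico k l, ∑ z ∈ g.cube l' x, den S j (V (j + 1)) z ≤
      dot (g.cube l' x) (V l) (V l) := by
  induction l, hkl using Nat.le_induction with
  | base => simp
  | succ l hkl ih =>
    have ih' := ih (h.mono le_rfl (Nat.le_succ l)) (by omega)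
    have h1 : dot (g.cube l' x) (V l) (V l) + ∑ z ∈ g.cube l' x, den S l (V (l + 1)) z ≤
        dot (g.cube l' x) (V (l + 1)) (V (l + 1)) := by
      unfold dot
      rw [← Finset.sum_add_distrib]
      refine g.sum_le_sum_of_cubes (by omega : l ≤ l') x _ _ fun y _ => ?_
      rw [Finset.sum_add_distrib, sum_den]
      have := T_energy S l (V (l + 1)) y
      rw [← h l hkl (Nat.lt_succ_self l)] at this
      exact this
    rw [Finset.sum_Ico_succ_top hkl]
    linarith

theorem IsChain'.energy_mono (h : IsChain' S k l V) (hkl : k ≤ l) {l' : ℕ} (hll : l ≤ l')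
    (x : X) : dot (g.cube l' x) (V k) (V k) ≤ dot (g.cube l' x) (V l) (V l) := by
  have := h.energy_window hkl hll x
  have h0 : 0 ≤ ∑ j ∈ Finset.Ico k l, ∑ z ∈ g.cube l' x, den S j (V (j + 1)) z :=
    Finset.sum_nonneg fun j _ => Finset.sum_nonneg fun z _ => den_nonneg S j _ z
  linarith

/-- The births at scale `j` of the function `G`, as a function. -/
noncomputable def birth (S : CSys g ι) (j : ℕ) (G : X → ℝ) (x : X) : ℝ :=
  cF S j (bm S j G (g.cube j x)) x

theorem IsChain'.eq_add_births (h : IsChain' S k l V) (hkl : k ≤ l) (x : X) :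
    V l x = V k x + ∑ j ∈ Finset.Ico k l, birth S j (V (j + 1)) x := by
  induction l, hkl using Nat.le_induction with
  | base => simp
  | succ l hkl ih =>
    rw [Finset.sum_Ico_succ_top hkl, ← add_assoc, ← ih (h.mono le_rfl (Nat.le_succ l))]
    have := congrFun (h l hkl (Nat.lt_succ_self l)) x
    unfold birth
    rw [this]
    unfold T
    ring

theorem abs_dot_birth_le {G H : X → ℝ} {k j l' : ℕ} (hkj : k ≤ j) (hj : j ≤ l')
    (hG : ∀ y i, |dot (g.cube k y) G (S.a k i)| ≤ S.W k (g.cube k y) i) (x : X) :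
    |dot (g.cube l' x) G (birth S j H)| ≤ S.C * ∑ z ∈ g.cube l' x, den S j H z := by
  have hcube : ∀ y, |dot (g.cube j y) G (birth S j H)| ≤
      ∑ z ∈ g.cube j y, S.C * den S j H z := by
    intro y
    rw [← Finset.mul_sum, sum_den]
    have h1 : dot (g.cube j y) G (birth S j H) =
        dot (g.cube j y) G (cF S j (bm S j H (g.cube j y))) := by
      refine dot_congr (fun _ _ => rfl) fun z hz => ?_
      unfold birth
      rw [g.eq_of_mem j y z hz]
    rw [h1, ← inner_toE]
    have h2 : toE (g.cube j y) (cF S j (bm S j H (g.cube j y))) =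
        bsum (fun i => toE (g.cube j y) (S.a j i)) (bm S j H (g.cube j y)) :=
      map_bsum _ _ _
    rw [h2]
    have h3 : |inner ℝ (toE (g.cube j y) G)
        (bsum (fun i => toE (g.cube j y) (S.a j i)) (bm S j H (g.cube j y)))| ≤
        bcost (fun i => S.C * S.W j (g.cube j y) i) (bm S j H (g.cube j y)) := by
      refine abs_inner_bsum_le (fun i => ?_) _
      rw [inner_toE]
      exact S.inherit k j hkj y i G fun z _ i' => hG z i'
    refine h3.trans (le_of_eq ?_)
    unfold cW bcost Finsupp.sum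
    rw [Finset.mul_sum]
    exact Finset.sum_congr rfl fun i _ => by ring
  rw [Finset.mul_sum, abs_le]
  constructor
  · rw [neg_le]
    have := g.sum_le_sum_of_cubes hj x (fun z => -(G z * birth S j H z))
      (fun z => S.C * den S j H z)
      (fun y _ => by
        rw [Finset.sum_neg_distrib]
        have := (abs_le.mp (hcube y)).1
        unfold dot at this
        linarith)
    rw [Finset.sum_neg_distrib] at this
    exact this
  · exact g.sum_le_sum_of_cubes hj x (fun z => G z * birth S j H z)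
      (fun z => S.C * den S j H z) (fun y _ => (abs_le.mp (hcube y)).2)

/-- Window inequality for births-only chains. -/
theorem IsChain'.window (h : IsChain' S k l V) (hkl : k ≤ l) {l' : ℕ} (hll : l ≤ l')
    (x : X) :
    dot (g.cube l' x) (V l - V k) (V l - V k) ≤
      (1 + 2 * S.C) * (dot (g.cube l' x) (V l) (V l) - dot (g.cube l' x) (V k) (V k)) := by
  rcases Nat.eq_or_lt_of_le hkl with rfl | hlt
  · simp [dot]
  set Q := g.cube l' x with hQ
  set D : X → ℝ := fun z => ∑ j ∈ Finset.Ico k l, birth S j (V (j + 1)) z with hD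
  have hG : V l = V k + D := by
    funext z; exact h.eq_add_births hkl z
  have hun : ∀ y i, |dot (g.cube k y) (V k) (S.a k i)| ≤ S.W k (g.cube k y) i := by
    intro y i
    rw [h k le_rfl hlt]
    exact T_unif S k _ y i
  set w := ∑ j ∈ Finset.Ico k l, ∑ z ∈ Q, den S j (V (j + 1)) z with hw
  have hw0 : 0 ≤ w := Finset.sum_nonneg fun j _ => Finset.sum_nonneg fun z _ => den_nonneg S j _ z
  have hin : |dot Q (V k) D| ≤ S.C * w := by
    have h1 : dot Q (V k) D = ∑ j ∈ Finset.Ico k l, dot Q (V k) (birth S j (V (j + 1))) := by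
      unfold dot
      rw [Finset.sum_comm]
      refine Finset.sum_congr rfl fun z _ => ?_
      rw [hD, Finset.mul_sum]
    rw [h1, hw, Finset.mul_sum]
    refine (Finset.abs_sum_le_sum_abs _ _).trans (Finset.sum_le_sum fun j hj => ?_)
    rw [Finset.mem_Ico] at hj
    exact abs_dot_birth_le hj.1 (by omega) hun x
  have hen := h.energy_window hkl hll x
  rw [← hQ, ← hw] at hen
  have e1 : V l - V k = D := by rw [hG]; funext z; simp
  have e2 : dot Q (V l) (V l) = dot Q (V k) (V k) + 2 * dot Q (V k) D + dot Q D D := by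
    rw [hG, dot_add_left, dot_add_right, dot_add_right, dot_comm Q D (V k)]
    ring
  rw [e1]
  have h5 := (abs_le.mp hin).1
  have hC := S.C_nonneg
  nlinarith [mul_nonneg hC hw0]

end chain

end Vale.Agent.P141.PL.H318
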