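import Vale.Agent.P141.PL.H318.RProc

/-! The births process with homogeneous resets: `G` is put back to `F` on every cube where its
energy exceeds four times the energy of `F`. -/

namespace Vale.Agent.P141.PL.H318

open scoped BigOperators
open Vale.Agent.P141.H315

variable {X ι : Type*} {g : Grid X}

/-- The cube of scale `k` of `x` is reset: `G` has more than four times the energy of `F`. -/
def Rst (g : Grid X) (k : ℕ) (F G : X → ℝ) (x : X) : Prop :=
  4 * dot (g.cube k x) F F < dot (g.cube k x) G G

theorem Rst_congr {k : ℕ} {F G : X → ℝ} {x y : X} (h : y ∈ g.cube k x) :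
    Rst g k F G y ↔ Rst g k F G x := by
  unfold Rst; rw [g.eq_of_mem k x y h]

open Classical in
/-- The function after the resets of scale `k`. -/
noncomputable def Hs (g : Grid X) (k : ℕ) (F G : X → ℝ) : X → ℝ :=
  fun x => if Rst g k F G x then F x else G x

theorem Hs_of_rst {k : ℕ} {F G : X → ℝ} {x : X} (h : Rst g k F G x) :
    ∀ y ∈ g.cube k x, Hs g k F G y = F y := by
  intro y hy
  unfold Hs
  rw [if_pos ((Rst_congr hy).mpr h)]

theorem Hs_of_not_rst {k : ℕ} {F G : X → ℝ} {x : X} (h : ¬ Rst g k F G x) :
    ∀ y ∈ g.cube k x, Hs g k F G y = G y := by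
  intro y hy
  unfold Hs
  rw [if_neg (fun h' => h ((Rst_congr hy).mp h'))]

theorem Hs_energy_le4 (k : ℕ) (F G : X → ℝ) (x : X) :
    dot (g.cube k x) (Hs g k F G) (Hs g k F G) ≤ 4 * dot (g.cube k x) F F := by
  by_cases h : Rst g k F G x
  · rw [dot_congr (Hs_of_rst h) (Hs_of_rst h)]
    have := dot_self_nonneg (g.cube k x) F
    linarith
  · rw [dot_congr (Hs_of_not_rst h) (Hs_of_not_rst h)]
    exact not_lt.mp h

theorem Hs_energy_le (k : ℕ) (F G : X → ℝ) (x : X) :
    dot (g.cube k x) (Hs g k F G) (Hs g k F G) ≤ dot (g.cube k x) G G := by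
  by_cases h : Rst g k F G x
  · rw [dot_congr (Hs_of_rst h) (Hs_of_rst h)]
    have := dot_self_nonneg (g.cube k x) F
    unfold Rst at h
    linarith
  · rw [dot_congr (Hs_of_not_rst h) (Hs_of_not_rst h)]

theorem Hs_self (k : ℕ) (F : X → ℝ) : Hs g k F F = F := by
  funext x; unfold Hs; split_ifs <;> rfl

/-- The process, indexed by the number of steps. -/
noncomputable def PP (S : CSys g ι) (n : ℕ) (F : X → ℝ) (j : ℕ) : X → ℝ :=
  Nat.rec F (fun i Gi => T S (n - i) (Hs g (n - i) F Gi)) j

/-- The process: `RG (n+1) = F`, and `RG k` is uniform at scale `k` for `k ≤ n`. -/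
noncomputable def RG (S : CSys g ι) (n : ℕ) (F : X → ℝ) (k : ℕ) : X → ℝ := PP S n F (n + 1 - k)

/-- The function before the births of scale `k` and after the resets. -/
noncomputable def RH (S : CSys g ι) (n : ℕ) (F : X → ℝ) (k : ℕ) : X → ℝ :=
  Hs g k F (RG S n F (k + 1))

section proc

variable (S : CSys g ι) (n : ℕ) (F : X → ℝ)

theorem RG_top {k : ℕ} (hk : n + 1 ≤ k) : RG S n F k = F := by
  unfold RG
  have : n + 1 - k = 0 := by omega
  rw [this]; rfl

theorem RG_step {k : ℕ} (hk : k ≤ n) : RG S n F k = T S k (RH S n F k) := by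
  unfold RH RG
  have h1 : n + 1 - k = (n - k) + 1 := by omega
  have h2 : n + 1 - (k + 1) = n - k := by omega
  have h3 : n - (n - k) = k := by omega
  rw [h1, h2]
  show T S (n - (n - k)) (Hs g (n - (n - k)) F (PP S n F (n - k))) = _
  rw [h3]

theorem RH_top {k : ℕ} (hk : n ≤ k) : RH S n F k = F := by
  unfold RH
  rw [RG_top S n F (by omega : n + 1 ≤ k + 1), Hs_self]

/-- **Uniformity.** -/
theorem RG_unif {k : ℕ} (hk : k ≤ n) (x : X) (i : ι) :
    |dot (g.cube k x) (RG S n F k) (S.a k i)| ≤ S.W k (g.cube k x) i := by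
  rw [RG_step S n F hk]
  exact T_unif S k _ x i

theorem RG_unif_coarse {k l : ℕ} (hk : k ≤ n) (hkl : k ≤ l) (x : X) (i : ι) :
    |dot (g.cube l x) (RG S n F k) (S.a l i)| ≤ S.C * S.W l (g.cube l x) i :=
  S.inherit k l hkl x i _ fun y _ i' => RG_unif S n F hk y i'

theorem RG_step_energy {k l' : ℕ} (hk : k ≤ n) (hl : k ≤ l') (x : X) :
    dot (g.cube l' x) (RG S n F k) (RG S n F k) +
      ∑ z ∈ g.cube l' x, den S k (RH S n F k) z ≤
      dot (g.cube l' x) (RH S n F k) (RH S n F k) := by
  unfold dot
  rw [← Finset.sum_add_distrib]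
  refine g.sum_le_sum_of_cubes hl x _ _ fun y _ => ?_
  rw [Finset.sum_add_distrib, sum_den]
  have := T_energy S k (RH S n F k) y
  rw [← RG_step S n F hk] at this
  exact this

theorem RH_le_RG {k l' : ℕ} (hl : k ≤ l') (x : X) :
    dot (g.cube l' x) (RH S n F k) (RH S n F k) ≤
      dot (g.cube l' x) (RG S n F (k + 1)) (RG S n F (k + 1)) := by
  unfold dot
  refine g.sum_le_sum_of_cubes hl x _ _ fun y _ => ?_
  exact Hs_energy_le k F (RG S n F (k + 1)) y

theorem RH_le_four {k l' : ℕ} (hl : k ≤ l') (x : X) :
    dot (g.cube l' x) (RH S n F k) (RH S n F k) ≤ 4 * dot (g.cube l' x) F F := by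
  unfold dot
  rw [Finset.mul_sum]
  refine g.sum_le_sum_of_cubes hl x _ _ fun y _ => ?_
  rw [← Finset.mul_sum]
  exact Hs_energy_le4 k F (RG S n F (k + 1)) y

theorem sum_den_nonneg (k l' : ℕ) (x : X) : 0 ≤ ∑ z ∈ g.cube l' x, den S k (RH S n F k) z :=
  Finset.sum_nonneg fun z _ => den_nonneg S k _ z

/-- Energies decrease with the resets and the births. -/
theorem RG_energy_window {k l l' : ℕ} (hkl : k ≤ l) (hl : l ≤ n + 1) (hll : l ≤ l') (x : X) :
    dot (g.cube l' x) (RG S n F k) (RG S n F k) +
      ∑ j ∈ Finset.Ico k l, ∑ z ∈ g.cube l' x, den S j (RH S n F j) z ≤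
      dot (g.cube l' x) (RG S n F l) (RG S n F l) := by
  induction l, hkl using Nat.le_induction with
  | base => simp
  | succ l hkl ih =>
    have ih' := ih (by omega) (by omega)
    have h1 := RG_step_energy S n F (by omega : l ≤ n) (by omega : l ≤ l') x
    have h2 := RH_le_RG S n F (by omega : l ≤ l') x
    rw [Finset.sum_Ico_succ_top hkl]
    linarith

theorem RG_mono {k l l' : ℕ} (hkl : k ≤ l) (hll : l ≤ l') (x : X) :
    dot (g.cube l' x) (RG S n F k) (RG S n F k) ≤
      dot (g.cube l' x) (RG S n F l) (RG S n F l) := by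
  rcases Nat.lt_or_ge (n + 1) l with h | h
  · rcases Nat.lt_or_ge (n + 1) k with h' | h'
    · rw [RG_top S n F (by omega : n + 1 ≤ k), RG_top S n F (by omega : n + 1 ≤ l)]
    · have e : RG S n F l = RG S n F (n + 1) := by
        rw [RG_top S n F (by omega : n + 1 ≤ l), RG_top S n F (le_refl (n + 1))]
      rw [e]
      have := RG_energy_window S n F h' le_rfl (by omega : n + 1 ≤ l') x
      have h0 : 0 ≤ ∑ j ∈ Finset.Ico k (n + 1), ∑ z ∈ g.cube l' x, den S j (RH S n F j) z :=
        Finset.sum_nonneg fun j _ => sum_den_nonneg S n F j l' x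
      linarith
  · have := RG_energy_window S n F hkl h hll x
    have h0 : 0 ≤ ∑ j ∈ Finset.Ico k l, ∑ z ∈ g.cube l' x, den S j (RH S n F j) z :=
      Finset.sum_nonneg fun j _ => sum_den_nonneg S n F j l' x
    linarith

/-- **Births are Carleson with respect to `F²`**, on every cube. -/
theorem RG_carleson {k l l' : ℕ} (hkl : k ≤ l) (hl : l ≤ n) (hll : l ≤ l') (x : X) :
    dot (g.cube l' x) (RG S n F k) (RG S n F k) +
      ∑ j ∈ Finset.Ico k (l + 1), ∑ z ∈ g.cube l' x, den S j (RH S n F j) z ≤
      4 * dot (g.cube l' x) F F := by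
  have h1 := RG_energy_window S n F hkl (by omega) hll x
  have h2 := RG_step_energy S n F hl hll x
  have h3 := RH_le_four S n F hll x
  rw [Finset.sum_Ico_succ_top hkl]
  linarith

/-- **Sure energy bound** on every cube, at all later times. -/
theorem RG_le_four {k l' : ℕ} (hl : k ≤ l') (x : X) :
    dot (g.cube l' x) (RG S n F k) (RG S n F k) ≤ 4 * dot (g.cube l' x) F F := by
  rcases Nat.lt_or_ge n k with h | h
  · rw [RG_top S n F (by omega : n + 1 ≤ k)]
    have := dot_self_nonneg (g.cube l' x) F
    linarith
  · have h1 := RG_carleson S n F (le_refl k) h hl x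
    have h0 : 0 ≤ ∑ j ∈ Finset.Ico k (k + 1), ∑ z ∈ g.cube l' x, den S j (RH S n F j) z :=
      Finset.sum_nonneg fun j _ => sum_den_nonneg S n F j l' x
    linarith

/-- **Carleson condition**, sum of all the births inside a cube of scale `l`. -/
theorem births_le {l : ℕ} (x : X) :
    ∑ j ∈ Finset.range (l + 1), (if j ≤ n then ∑ z ∈ g.cube l x, den S j (RH S n F j) z else 0) ≤
      4 * dot (g.cube l x) F F := by
  have h0 := dot_self_nonneg (g.cube l x) (RG S n F 0)
  rcases Nat.lt_or_ge n l with h | h
  · have h1 := RG_carleson S n F (Nat.zero_le n) le_rfl h.le x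
    have h2 : ∑ j ∈ Finset.range (l + 1),
        (if j ≤ n then ∑ z ∈ g.cube l x, den S j (RH S n F j) z else 0) =
        ∑ j ∈ Finset.Ico 0 (n + 1), ∑ z ∈ g.cube l x, den S j (RH S n F j) z := by
      rw [← Finset.sum_filter]
      refine Finset.sum_congr ?_ fun _ _ => rfl
      ext j; simp only [Finset.mem_filter, Finset.mem_range, Finset.mem_Ico]; omega
    rw [h2]; linarith
  · have h1 := RG_carleson S n F (Nat.zero_le l) h le_rfl x
    have h2 : ∑ j ∈ Finset.range (l + 1),
        (if j ≤ n then ∑ z ∈ g.cube l x, den S j (RH S n F j) z else 0) =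
        ∑ j ∈ Finset.Ico 0 (l + 1), ∑ z ∈ g.cube l x, den S j (RH S n F j) z := by
      rw [← Finset.sum_filter]
      refine Finset.sum_congr ?_ fun _ _ => rfl
      ext j; simp only [Finset.mem_filter, Finset.mem_range, Finset.mem_Ico]; omega
    rw [h2]; linarith

/-! ### Window inequality -/

/-- The births-only continuation of `G` (at index `l`). -/
noncomputable def Vr (S : CSys g ι) (G : X → ℝ) (l k : ℕ) : X → ℝ :=
  Nat.rec G (fun i Gi => T S (l - 1 - i) Gi) (l - k)

omit n F in
theorem Vr_top (G : X → ℝ) (l : ℕ) : Vr S G l l = G := by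
  unfold Vr; rw [Nat.sub_self]; rfl

omit n F in
theorem Vr_step (G : X → ℝ) {l k : ℕ} (h : k < l) : Vr S G l k = T S k (Vr S G l (k + 1)) := by
  have h1 : l - k = (l - (k + 1)) + 1 := by omega
  have h2 : l - 1 - (l - (k + 1)) = k := by omega
  unfold Vr
  rw [h1]
  show T S (l - 1 - (l - (k + 1))) _ = _
  rw [h2]

omit n F in
theorem Vr_chain (G : X → ℝ) (l k : ℕ) : IsChain' S k l (Vr S G l) :=
  fun _ _ h => Vr_step S G h

theorem dot_sub_self_le (Q : Finset X) (f h : X → ℝ) :
    dot Q (f - h) (f - h) ≤ 2 * dot Q f f + 2 * dot Q h h := by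
  unfold dot
  rw [Finset.mul_sum, Finset.mul_sum, ← Finset.sum_add_distrib]
  refine Finset.sum_le_sum fun x _ => ?_
  simp only [Pi.sub_apply]
  nlinarith [sq_nonneg (f x + h x)]

/-- Comparison of the process with its births-only continuation. -/
theorem compare {k l : ℕ} (hl : l ≤ n + 1) {j : ℕ} (hkj : k ≤ j) (hjl : j ≤ l) (x : X)
    (heq : ∀ z ∈ g.cube j x, RG S n F j z = Vr S (RG S n F l) l j z) :
    dot (g.cube j x) (Vr S (RG S n F l) l j) (Vr S (RG S n F l) l j) -
      dot (g.cube j x) (Vr S (RG S n F l) l k) (Vr S (RG S n F l) l k) ≤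
      2 * (dot (g.cube j x) (RG S n F j) (RG S n F j) -
        dot (g.cube j x) (RG S n F k) (RG S n F k)) ∧
    dot (g.cube j x) (RG S n F k - Vr S (RG S n F l) l k)
      (RG S n F k - Vr S (RG S n F l) l k) ≤
      6 * (dot (g.cube j x) (RG S n F j) (RG S n F j) -
        dot (g.cube j x) (RG S n F k) (RG S n F k)) := by
  set V : ℕ → X → ℝ := Vr S (RG S n F l) l with hV
  induction j, hkj using Nat.le_induction generalizing x with
  | base =>
    constructor
    · simp
    · have : dot (g.cube k x) (RG S n F k - V k) (RG S n F k - V k) = 0 := by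
        unfold dot
        refine Finset.sum_eq_zero fun z hz => ?_
        simp only [Pi.sub_apply]
        rw [heq z hz]; ring
      rw [this]; simp
  | succ j hkj ih =>
    have ih' := fun y => ih (by omega) y
    -- cube by cube
    have key : ∀ y ∈ g.cube (j + 1) x,
        (dot (g.cube j y) (V (j + 1)) (V (j + 1)) - dot (g.cube j y) (V k) (V k) ≤
          2 * (dot (g.cube j y) (RG S n F (j + 1)) (RG S n F (j + 1)) -
            dot (g.cube j y) (RG S n F k) (RG S n F k))) ∧
        (dot (g.cube j y) (RG S n F k - V k) (RG S n F k - V k) ≤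
          6 * (dot (g.cube j y) (RG S n F (j + 1)) (RG S n F (j + 1)) -
            dot (g.cube j y) (RG S n F k) (RG S n F k))) := by
      intro y hy
      have hsub : g.cube j y ⊆ g.cube (j + 1) x := g.cube_subset (Nat.le_succ j) hy
      have hE : dot (g.cube j y) (V (j + 1)) (V (j + 1)) =
          dot (g.cube j y) (RG S n F (j + 1)) (RG S n F (j + 1)) :=
        (dot_congr (fun z hz => heq z (hsub hz)) (fun z hz => heq z (hsub hz))).symm
      have hVmono : dot (g.cube j y) (V k) (V k) ≤ dot (g.cube j y) (V j) (V j) :=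
        (Vr_chain S (RG S n F l) l k |>.mono le_rfl (by omega : j ≤ l)).energy_mono hkj le_rfl y
      have hVj : V j = T S j (V (j + 1)) := Vr_step S _ (by omega)
      have hVle : dot (g.cube j y) (V j) (V j) ≤ dot (g.cube j y) (V (j + 1)) (V (j + 1)) := by
        rw [hVj]; exact T_energy_le S j _ y
      have hjn : j ≤ n := by omega
      have hG := RG_step S n F hjn
      by_cases hR : Rst g j F (RG S n F (j + 1)) y
      · -- reset
        have h1 : dot (g.cube j y) (RG S n F j) (RG S n F j) ≤ dot (g.cube j y) F F := by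
          rw [hG]
          refine (T_energy_le S j _ y).trans (le_of_eq ?_)
          exact dot_congr (Hs_of_rst hR) (Hs_of_rst hR)
        have h2 := RG_mono S n F hkj (le_refl j) y
        have h3 : 4 * dot (g.cube j y) F F <
            dot (g.cube j y) (RG S n F (j + 1)) (RG S n F (j + 1)) := hR
        have h4 := dot_self_nonneg (g.cube j y) F
        have h5 := dot_self_nonneg (g.cube j y) (V k)
        have h6 := dot_self_nonneg (g.cube j y) (RG S n F k)
        constructor
        · linarith
        · have h7 := dot_sub_self_le (g.cube j y) (RG S n F k) (V k)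
          linarith
      · -- no reset
        have h1 : ∀ z ∈ g.cube j y, RG S n F j z = V j z := by
          intro z hz
          rw [hG, hVj]
          refine T_congr S j y (fun w hw => ?_) z hz
          unfold RH
          rw [Hs_of_not_rst hR w hw]
          exact heq w (hsub hw)
        obtain ⟨ha, hb⟩ := ih' y h1
        have h2 : dot (g.cube j y) (RG S n F j) (RG S n F j) =
            dot (g.cube j y) (V j) (V j) := dot_congr h1 h1
        constructor
        · linarith
        · linarith
    constructor
    · have := g.sum_le_sum_of_cubes (Nat.le_succ j) x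
        (fun z => V (j + 1) z * V (j + 1) z - V k z * V k z)
        (fun z => 2 * (RG S n F (j + 1) z * RG S n F (j + 1) z - RG S n F k z * RG S n F k z))
        (fun y hy => by
          have := (key y hy).1
          unfold dot at this
          rw [Finset.sum_sub_distrib, ← Finset.mul_sum, Finset.sum_sub_distrib]
          exact this)
      rw [Finset.sum_sub_distrib, ← Finset.mul_sum, Finset.sum_sub_distrib] at this
      exact this
    · have := g.sum_le_sum_of_cubes (Nat.le_succ j) x
        (fun z => (RG S n F k - V k) z * (RG S n F k - V k) z)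
        (fun z => 6 * (RG S n F (j + 1) z * RG S n F (j + 1) z - RG S n F k z * RG S n F k z))
        (fun y hy => by
          have := (key y hy).2
          unfold dot at this
          rw [← Finset.mul_sum, Finset.sum_sub_distrib]
          exact this)
      rw [← Finset.mul_sum, Finset.sum_sub_distrib] at this
      exact this

/-- **Sure window inequality**, resets included, on every cube of scale at least `l`. -/
theorem RG_window {k l l' : ℕ} (hkl : k ≤ l) (hll : l ≤ l') (x : X) :
    dot (g.cube l' x) (RG S n F l - RG S n F k) (RG S n F l - RG S n F k) ≤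
      (16 + 8 * S.C) * (dot (g.cube l' x) (RG S n F l) (RG S n F l) -
        dot (g.cube l' x) (RG S n F k) (RG S n F k)) := by
  have hC := S.C_nonneg
  -- main case
  have main : ∀ l, k ≤ l → l ≤ n + 1 → l ≤ l' →
      dot (g.cube l' x) (RG S n F l - RG S n F k) (RG S n F l - RG S n F k) ≤
      (16 + 8 * S.C) * (dot (g.cube l' x) (RG S n F l) (RG S n F l) -
        dot (g.cube l' x) (RG S n F k) (RG S n F k)) := by
    intro l hkl hl hll
    have hcube : ∀ y ∈ g.cube l' x,
        dot (g.cube l y) (RG S n F l - RG S n F k) (RG S n F l - RG S n F k) ≤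
        (16 + 8 * S.C) * (dot (g.cube l y) (RG S n F l) (RG S n F l) -
          dot (g.cube l y) (RG S n F k) (RG S n F k)) := by
      intro y _
      have h0 : ∀ z ∈ g.cube l y, RG S n F l z = Vr S (RG S n F l) l l z := by
        intro z _; rw [Vr_top]
      obtain ⟨h1, h2⟩ := compare S n F hl hkl le_rfl y h0
      have h3 := (Vr_chain S (RG S n F l) l k).window hkl (le_refl l) y
      rw [Vr_top] at h1 h3
      set V := Vr S (RG S n F l) l k
      have h4 : dot (g.cube l y) (RG S n F l - RG S n F k) (RG S n F l - RG S n F k) ≤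
          2 * dot (g.cube l y) (RG S n F l - V) (RG S n F l - V) +
            2 * dot (g.cube l y) (RG S n F k - V) (RG S n F k - V) := by
        have := dot_sub_self_le (g.cube l y) (RG S n F l - V) (RG S n F k - V)
        have e : RG S n F l - V - (RG S n F k - V) = RG S n F l - RG S n F k := by
          funext z; simp
        rwa [e] at this
      have h5 : (1 + 2 * S.C) * (dot (g.cube l y) (RG S n F l) (RG S n F l) -
          dot (g.cube l y) V V) ≤ (1 + 2 * S.C) * (2 * (dot (g.cube l y) (RG S n F l)
          (RG S n F l) - dot (g.cube l y) (RG S n F k) (RG S n F k))) :=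
        mul_le_mul_of_nonneg_left h1 (by linarith)
      nlinarith
    have := g.sum_le_sum_of_cubes hll x
      (fun z => (RG S n F l - RG S n F k) z * (RG S n F l - RG S n F k) z)
      (fun z => (16 + 8 * S.C) * (RG S n F l z * RG S n F l z - RG S n F k z * RG S n F k z))
      (fun y hy => by
        have := hcube y hy
        unfold dot at this
        rw [← Finset.mul_sum, Finset.sum_sub_distrib]
        exact this)
    rw [← Finset.mul_sum, Finset.sum_sub_distrib] at this
    exact this
  rcases Nat.lt_or_ge (n + 1) l with h | h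
  · rcases Nat.lt_or_ge (n + 1) k with h' | h'
    · rw [RG_top S n F (by omega : n + 1 ≤ k), RG_top S n F (by omega : n + 1 ≤ l)]
      simp [dot]
    · have e : RG S n F l = RG S n F (n + 1) := by
        rw [RG_top S n F (by omega : n + 1 ≤ l), RG_top S n F (le_refl (n + 1))]
      rw [e]
      exact main (n + 1) h' le_rfl (by omega)
  · exact main l hkl h hll

/-- **Sure movement bound** along any monotone sequence of scales, on every cube. -/
theorem RG_movement {l' : ℕ} (x : X) (m : ℕ → ℕ) (hm : Monotone m) (N : ℕ) (hN : m N ≤ l') :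
    ∑ i ∈ Finset.range N, dot (g.cube l' x) (RG S n F (m (i + 1)) - RG S n F (m i))
      (RG S n F (m (i + 1)) - RG S n F (m i)) ≤
      (64 + 32 * S.C) * dot (g.cube l' x) F F := by
  have h1 : ∀ i ∈ Finset.range N, dot (g.cube l' x) (RG S n F (m (i + 1)) - RG S n F (m i))
      (RG S n F (m (i + 1)) - RG S n F (m i)) ≤
      (16 + 8 * S.C) * dot (g.cube l' x) (RG S n F (m (i + 1))) (RG S n F (m (i + 1))) -
        (16 + 8 * S.C) * dot (g.cube l' x) (RG S n F (m i)) (RG S n F (m i)) := by
    intro i hi
    rw [Finset.mem_range] at hi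
    have := RG_window S n F (hm (Nat.le_succ i)) ((hm (by omega : i + 1 ≤ N)).trans hN) x
    linarith
  refine (Finset.sum_le_sum h1).trans ?_
  rw [Finset.sum_range_sub (fun i => (16 + 8 * S.C) *
    dot (g.cube l' x) (RG S n F (m i)) (RG S n F (m i)))]
  have h2 := RG_le_four S n F hN x
  have h3 := dot_self_nonneg (g.cube l' x) (RG S n F (m 0))
  have hC := S.C_nonneg
  nlinarith [mul_nonneg hC h3, mul_le_mul_of_nonneg_left h2 hC]

/-! ### The structured part -/

/-- No reset at the scales in `[k, j)`. -/
def Alive (k j : ℕ) (x : X) : Prop :=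
  ∀ i, k ≤ i → i < j → ¬ Rst g i F (RG S n F (i + 1)) x

theorem Alive_congr {k j : ℕ} {x y : X} (h : y ∈ g.cube k x) :
    Alive S n F k j y ↔ Alive S n F k j x := by
  unfold Alive
  refine forall_congr' fun i => forall_congr' fun hi => forall_congr' fun _ => ?_
  rw [Rst_congr (g.sub_le hi x h)]

theorem Alive.mono {k k' j : ℕ} {x : X} (h : Alive S n F k j x) (hk : k ≤ k') :
    Alive S n F k' j x := fun i h1 h2 => h i (by omega) h2

theorem Alive_self (k : ℕ) (x : X) : Alive S n F k k x := fun i h1 h2 => by omega

open Classical in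
/-- The structured part is the sum of the alive births. -/
theorem St_eq {k : ℕ} (hk : k ≤ n + 1) (x : X) :
    F x - RG S n F k x = ∑ j ∈ Finset.Ico k (n + 1),
      (if Alive S n F k j x then birth S j (RH S n F j) x else 0) := by
  have key : ∀ d k, k + d = n + 1 → F x - RG S n F k x = ∑ j ∈ Finset.Ico k (n + 1),
      (if Alive S n F k j x then birth S j (RH S n F j) x else 0) := by
    intro d
    induction d with
    | zero =>
      intro k hk
      have : k = n + 1 := by omega
      subst this
      rw [RG_top S n F le_rfl]; simp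
    | succ d ih =>
      intro k hk
      have ih' := ih (k + 1) (by omega)
      have hkn : k ≤ n := by omega
      rw [← Finset.add_sum_Ioo_eq_sum_Ico (by omega : k < n + 1)]
      rw [if_pos (Alive_self S n F k x)]
      have hIoo : Finset.Ioo k (n + 1) = Finset.Ico (k + 1) (n + 1) := by
        ext j; simp only [Finset.mem_Ioo, Finset.mem_Ico]; omega
      rw [hIoo]
      have hG : RG S n F k x = RH S n F k x - birth S k (RH S n F k) x := by
        rw [RG_step S n F hkn]; rfl
      by_cases hR : Rst g k F (RG S n F (k + 1)) x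
      · have h1 : RH S n F k x = F x := Hs_of_rst hR x (g.mem k x)
        have h2 : ∑ j ∈ Finset.Ico (k + 1) (n + 1),
            (if Alive S n F k j x then birth S j (RH S n F j) x else 0) = 0 := by
          refine Finset.sum_eq_zero fun j hj => ?_
          rw [Finset.mem_Ico] at hj
          rw [if_neg]
          intro h
          exact h k le_rfl (by omega) hR
        rw [h2, hG, h1]; ring
      · have h1 : RH S n F k x = RG S n F (k + 1) x := Hs_of_not_rst hR x (g.mem k x)
        have h2 : ∑ j ∈ Finset.Ico (k + 1) (n + 1),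
            (if Alive S n F k j x then birth S j (RH S n F j) x else 0) =
            ∑ j ∈ Finset.Ico (k + 1) (n + 1),
            (if Alive S n F (k + 1) j x then birth S j (RH S n F j) x else 0) := by
          refine Finset.sum_congr rfl fun j hj => ?_
          rw [Finset.mem_Ico] at hj
          have : Alive S n F k j x ↔ Alive S n F (k + 1) j x := by
            constructor
            · intro h; exact h.mono S n F (Nat.le_succ k)
            · intro h i hi hij
              rcases Nat.eq_or_lt_of_le hi with rfl | hlt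
              · exact hR
              · exact h i hlt hij
          by_cases h : Alive S n F k j x
          · rw [if_pos h, if_pos (this.mp h)]
          · rw [if_neg h, if_neg (fun h' => h (this.mpr h'))]
        rw [h2, hG, h1, ← ih']; ring
  exact key (n + 1 - k) k (by omega)

/-- If `F` vanishes on a cube of scale at least `k` then so does `RG k`. -/
theorem RG_eq_zero {k l' : ℕ} (hl : k ≤ l') (x : X)
    (hF : ∀ z ∈ g.cube l' x, F z = 0) : ∀ z ∈ g.cube l' x, RG S n F k z = 0 := by
  have h1 := RG_le_four S n F hl x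
  have h4 : dot (g.cube l' x) F F = 0 :=
    Finset.sum_eq_zero fun z hz => by rw [hF z hz, zero_mul]
  intro z hz
  have h2 := (Finset.sum_eq_zero_iff_of_nonneg (fun z _ => mul_self_nonneg (RG S n F k z))).mp
    (le_antisymm (by rw [h4] at h1; simpa [dot] using h1) (dot_self_nonneg _ _)) z hz
  exact mul_self_eq_zero.mp h2

end proc

end Vale.Agent.P141.PL.H318
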