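import Vale.Agent.P141.PL.H318.Reset
import Vale.Agent.P141.PL.H95.Grid
import Vale.Agent.P141.PL.Defs1

/-! The one-dimensional system of tests: push-forwards of products of three edge functions on
cubes of scale `k` under a linear form, tested on the intervals of scale `k + c0` of a shifted
dyadic grid. -/

namespace Vale.Agent.P141.PL.H318

noncomputable section

open scoped BigOperators
open Vale.Agent.P141.H315
open Vale.Agent.P141.PL.H315 (cube3 mem_cube3 gz card_cube3 atm e12 e13 e23 wt wt_nonneg wN Nm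
  Nm_nonneg Tri avg mx mx_nonneg abs_le_mx sq_mx_le_Nm avg_prod_Nm_le)
open Vale.Agent.P141.PL.H95 (gr mem_gr card_gr)

/-- The index of the interval of scale `k + c0` of the grid shifted by `σ`. -/
def ixs (c0 : ℕ) (σ : ℤ) (k : ℕ) (x : ℤ) : ℤ := (x + σ) / 2 ^ (k + c0)

theorem mem_gs {c0 : ℕ} {σ : ℤ} {k : ℕ} {x y : ℤ} :
    y ∈ (gr c0 σ).cube k x ↔ ixs c0 σ k y = ixs c0 σ k x := mem_gr

/-- The atoms: push-forwards of products. -/
def a1 (c : ℤ × ℤ × ℤ) (k : ℕ) (i : (ℤ × ℤ × ℤ) × Tri) (s : ℤ) : ℝ :=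
  ∑ y ∈ cube3 k i.1, if el c y = s then atm i.2 y else 0

/-- Pairing with an atom. -/
theorem dot_a1 (c : ℤ × ℤ × ℤ) (k : ℕ) (i : (ℤ × ℤ × ℤ) × Tri) (J : Finset ℤ) (G : ℤ → ℝ) :
    dot J G (a1 c k i) = ∑ y ∈ cube3 k i.1, if el c y ∈ J then G (el c y) * atm i.2 y else 0 := by
  unfold dot a1
  simp_rw [Finset.mul_sum]
  rw [Finset.sum_comm]
  refine Finset.sum_congr rfl fun y _ => ?_
  by_cases hy : el c y ∈ J
  · rw [if_pos hy, Finset.sum_eq_single (el c y)]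
    · simp
    · intro s _ hs; rw [if_neg (fun h => hs h.symm)]; simp
    · intro h; exact absurd hy h
  · rw [if_neg hy]
    refine Finset.sum_eq_zero fun s hs => ?_
    rw [if_neg (fun h : el c y = s => hy (by rw [h]; exact hs))]; simp

theorem nondeg_atm' {δ e : ℝ} (hδ : 0 < δ) (h0 : 0 ≤ e) (h1 : e ≤ 1)
    {Q : Finset (ℤ × ℤ × ℤ)} (hQ : Q.Nonempty) (u : Tri) :
    δ ^ 2 * (Q.card : ℝ)⁻¹ ^ 2 * dot Q (atm u) (atm u) ≤ wt δ e Q u ^ 2 := by
  have hc : (1 : ℝ) ≤ Q.card := by exact_mod_cast Finset.card_pos.mpr hQ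
  have hc0 : (0 : ℝ) < Q.card := by linarith
  set a := mx Q (e12 u.1)
  set b := mx Q (e13 u.2.1)
  set c := mx Q (e23 u.2.2)
  have ha : 0 ≤ a := mx_nonneg _ _
  have hb : 0 ≤ b := mx_nonneg _ _
  have hcc : 0 ≤ c := mx_nonneg _ _
  have h2 : dot Q (atm u) (atm u) ≤ Q.card * (a ^ 2 * b ^ 2 * c ^ 2) := by
    unfold dot
    rw [← nsmul_eq_mul]
    refine Finset.sum_le_card_nsmul _ _ _ fun p hp => ?_
    have e1 : |e12 u.1 p| ≤ a := abs_le_mx hp _
    have e2 : |e13 u.2.1 p| ≤ b := abs_le_mx hp _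
    have e3 : |e23 u.2.2 p| ≤ c := abs_le_mx hp _
    have e4 : |atm u p| ≤ a * b * c := by
      unfold atm
      rw [abs_mul, abs_mul]
      exact mul_le_mul (mul_le_mul e1 e2 (abs_nonneg _) ha) e3 (abs_nonneg _) (by positivity)
    have e5 : atm u p * atm u p = |atm u p| ^ 2 := by rw [sq_abs]; ring
    rw [e5]
    calc |atm u p| ^ 2 ≤ (a * b * c) ^ 2 := pow_le_pow_left₀ (abs_nonneg _) e4 2
      _ = a ^ 2 * b ^ 2 * c ^ 2 := by ring
  have h3 : wt δ e Q u ^ 2 = δ ^ 2 * (Q.card : ℝ) ^ 2 *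
      (Nm e Q (e12 u.1) ^ 2 * Nm e Q (e13 u.2.1) ^ 2 * Nm e Q (e23 u.2.2) ^ 2) := by
    unfold wt; ring
  have k1 := sq_mx_le_Nm hQ (e12 u.1) h0 h1
  have k2 := sq_mx_le_Nm hQ (e13 u.2.1) h0 h1
  have k3 := sq_mx_le_Nm hQ (e23 u.2.2) h0 h1
  have h4 : ((Q.card : ℝ)⁻¹ * a ^ 2) * ((Q.card : ℝ)⁻¹ * b ^ 2) * ((Q.card : ℝ)⁻¹ * c ^ 2) ≤
      Nm e Q (e12 u.1) ^ 2 * Nm e Q (e13 u.2.1) ^ 2 * Nm e Q (e23 u.2.2) ^ 2 :=
    mul_le_mul (mul_le_mul k1 k2 (by positivity) (by positivity)) k3 (by positivity)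
      (by positivity)
  rw [h3]
  calc δ ^ 2 * (Q.card : ℝ)⁻¹ ^ 2 * dot Q (atm u) (atm u)
      ≤ δ ^ 2 * (Q.card : ℝ)⁻¹ ^ 2 * (Q.card * (a ^ 2 * b ^ 2 * c ^ 2)) :=
        mul_le_mul_of_nonneg_left h2 (by positivity)
    _ = δ ^ 2 * (Q.card : ℝ) ^ 2 * (((Q.card : ℝ)⁻¹ * a ^ 2) * ((Q.card : ℝ)⁻¹ * b ^ 2) *
          ((Q.card : ℝ)⁻¹ * c ^ 2)) := by field_simp
    _ ≤ _ := mul_le_mul_of_nonneg_left h4 (by positivity)

theorem a1_sq_le (c : ℤ × ℤ × ℤ) (k : ℕ) (i : (ℤ × ℤ × ℤ) × Tri) (J : Finset ℤ) :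
    dot J (a1 c k i) (a1 c k i) ≤ 8 ^ k * dot (cube3 k i.1) (atm i.2) (atm i.2) := by
  have h1 : ∀ s ∈ J, a1 c k i s * a1 c k i s ≤
      8 ^ k * ∑ y ∈ cube3 k i.1, if el c y = s then atm i.2 y * atm i.2 y else 0 := by
    intro s _
    unfold a1
    have h2 := Finset.sum_mul_sq_le_sq_mul_sq (cube3 k i.1) (fun _ => (1 : ℝ))
      (fun y => if el c y = s then atm i.2 y else 0)
    simp only [one_mul, one_pow, Finset.sum_const, nsmul_eq_mul, mul_one, card_cube3] at h2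
    push_cast at h2
    rw [← sq]
    refine h2.trans (le_of_eq ?_)
    congr 1
    refine Finset.sum_congr rfl fun y _ => ?_
    by_cases h : el c y = s
    · simp [h, sq]
    · simp [h]
  unfold dot
  refine (Finset.sum_le_sum h1).trans ?_
  rw [← Finset.mul_sum, Finset.sum_comm]
  refine mul_le_mul_of_nonneg_left (Finset.sum_le_sum fun y _ => ?_) (by positivity)
  by_cases hy : el c y ∈ J
  · rw [Finset.sum_eq_single (el c y)]
    · simp
    · intro s _ hs; rw [if_neg (fun h => hs h.symm)]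
    · intro h; exact absurd hy h
  · rw [Finset.sum_eq_zero]
    · exact mul_self_nonneg _
    · intro s hs; rw [if_neg (fun h : el c y = s => hy (by rw [h]; exact hs))]

theorem nondeg_a1 {δ e : ℝ} (hδ : 0 < δ) (h0 : 0 ≤ e) (h1 : e ≤ 1) (c : ℤ × ℤ × ℤ) (k : ℕ)
    (J : Finset ℤ) : ∃ β : ℝ, 0 < β ∧ ∀ i : (ℤ × ℤ × ℤ) × Tri,
      β * dot J (a1 c k i) (a1 c k i) ≤ wt δ e (cube3 k i.1) i.2 ^ 2 := by
  refine ⟨δ ^ 2 * ((8 : ℝ) ^ k)⁻¹ ^ 2 * ((8 : ℝ) ^ k)⁻¹, by positivity, fun i => ?_⟩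
  have h2 := nondeg_atm' hδ h0 h1 (Q := cube3 k i.1) ⟨i.1, gz.mem k i.1⟩ i.2
  have h3 := a1_sq_le c k i J
  rw [card_cube3] at h2
  push_cast at h2
  refine le_trans ?_ h2
  calc δ ^ 2 * ((8 : ℝ) ^ k)⁻¹ ^ 2 * ((8 : ℝ) ^ k)⁻¹ * dot J (a1 c k i) (a1 c k i)
      ≤ δ ^ 2 * ((8 : ℝ) ^ k)⁻¹ ^ 2 * ((8 : ℝ) ^ k)⁻¹ *
        (8 ^ k * dot (cube3 k i.1) (atm i.2) (atm i.2)) :=
        mul_le_mul_of_nonneg_left h3 (by positivity)
    _ = _ := by field_simp

/-! ### A cube of scale `k` sees at most two cells -/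

theorem ivb {k : ℕ} {x y y' : ℤ} (hy : y ∈ H315.iv k x) (hy' : y' ∈ H315.iv k x) :
    |y - y'| ≤ 2 ^ k - 1 := by
  unfold H315.iv at hy hy'
  rw [Finset.mem_Ico] at hy hy'
  rw [abs_le]; constructor <;> omega

/-- The size of a linear form. -/
def csz (c : ℤ × ℤ × ℤ) : ℤ := |c.1| + |c.2.1| + |c.2.2|

theorem el_diff {c : ℤ × ℤ × ℤ} {k : ℕ} {q y y' : ℤ × ℤ × ℤ} (hy : y ∈ cube3 k q)
    (hy' : y' ∈ cube3 k q) : |el c y - el c y'| ≤ csz c * (2 ^ k - 1) := by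
  rw [mem_cube3] at hy hy'
  have h1 := ivb hy.1 hy'.1
  have h2 := ivb hy.2.1 hy'.2.1
  have h3 := ivb hy.2.2 hy'.2.2
  have e : el c y - el c y' = c.1 * (y.1 - y'.1) + c.2.1 * (y.2.1 - y'.2.1) +
      c.2.2 * (y.2.2 - y'.2.2) := by unfold el; ring
  rw [e]
  refine (abs_add_three _ _ _).trans ?_
  rw [abs_mul, abs_mul, abs_mul]
  unfold csz
  have := mul_le_mul_of_nonneg_left h1 (abs_nonneg c.1)
  have := mul_le_mul_of_nonneg_left h2 (abs_nonneg c.2.1)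
  have := mul_le_mul_of_nonneg_left h3 (abs_nonneg c.2.2)
  linarith

theorem ixs_le_of_le {c0 : ℕ} {σ : ℤ} {k : ℕ} {x y : ℤ} (h : x ≤ y) :
    ixs c0 σ k x ≤ ixs c0 σ k y := by
  unfold ixs
  exact Int.ediv_le_ediv (by positivity) (by linarith)

theorem ixs_add {c0 : ℕ} {σ : ℤ} {k : ℕ} {x y : ℤ} (h : y < x + 2 ^ (k + c0)) :
    ixs c0 σ k y ≤ ixs c0 σ k x + 1 := by
  have h2 : (0 : ℤ) < 2 ^ (k + c0) := by positivity
  have h3 : ixs c0 σ k y ≤ ixs c0 σ k (x + 2 ^ (k + c0)) := ixs_le_of_le h.le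
  have h4 : ixs c0 σ k (x + 2 ^ (k + c0)) = ixs c0 σ k x + 1 := by
    unfold ixs
    rw [show x + 2 ^ (k + c0) + σ = x + σ + 1 * 2 ^ (k + c0) by ring,
      Int.add_mul_ediv_right _ _ h2.ne']
  linarith

/-- A finite set of integers of diameter less than the length of the cells meets at most two
consecutive cells. -/
theorem two_cells {c0 : ℕ} {σ : ℤ} {k : ℕ} {U : Finset ℤ}
    (hU : ∀ s ∈ U, ∀ s' ∈ U, s < s' + 2 ^ (k + c0)) :
    ∃ m : ℤ, ∀ s ∈ U, ixs c0 σ k s = m ∨ ixs c0 σ k s = m + 1 := by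
  rcases U.eq_empty_or_nonempty with rfl | hne
  · exact ⟨0, fun s hs => absurd hs (Finset.notMem_empty s)⟩
  · refine ⟨ixs c0 σ k (U.min' hne), fun s hs => ?_⟩
    have h1 : ixs c0 σ k (U.min' hne) ≤ ixs c0 σ k s := ixs_le_of_le (U.min'_le s hs)
    have h2 : ixs c0 σ k s ≤ ixs c0 σ k (U.min' hne) + 1 :=
      ixs_add (hU s hs _ (U.min'_mem hne))
    omega

theorem two_cells_el {c0 : ℕ} {σ : ℤ} {c : ℤ × ℤ × ℤ} (hc : csz c ≤ 2 ^ c0) (k : ℕ)
    (q : ℤ × ℤ × ℤ) :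
    ∃ m : ℤ, ∀ y ∈ cube3 k q, ixs c0 σ k (el c y) = m ∨ ixs c0 σ k (el c y) = m + 1 := by
  classical
  obtain ⟨m, hm⟩ := two_cells (c0 := c0) (σ := σ) (k := k) (U := (cube3 k q).image (el c))
    (by
      intro s hs s' hs'
      obtain ⟨y, hy, rfl⟩ := Finset.mem_image.mp hs
      obtain ⟨y', hy', rfl⟩ := Finset.mem_image.mp hs'
      have h1 := (abs_le.mp (el_diff (c := c) hy hy')).2
      have h2 : csz c * (2 ^ k - 1) < 2 ^ (k + c0) := by
        have h3 : (1 : ℤ) ≤ 2 ^ k := one_le_pow₀ (by norm_num)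
        have h4 : csz c * (2 ^ k - 1) ≤ 2 ^ c0 * (2 ^ k - 1) :=
          mul_le_mul_of_nonneg_right hc (by linarith)
        have h5 : (2 : ℤ) ^ (k + c0) = 2 ^ c0 * 2 ^ k := by rw [pow_add]; ring
        have h6 : (0 : ℤ) < 2 ^ c0 := by positivity
        rw [h5]; nlinarith
      linarith)
  exact ⟨m, fun y hy => hm _ (Finset.mem_image_of_mem _ hy)⟩

/-! ### Uniformity on all cubes -/

open Classical in
/-- Uniformity of `1_A G` on the cubes of scale `k`, if `G` is uniform on the cells of scale `k`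
in `A`. -/
theorem cube_unif {c0 : ℕ} {σ : ℤ} {c : ℤ × ℤ × ℤ} (hc : csz c ≤ 2 ^ c0) {δ e : ℝ} (hδ : 0 ≤ δ)
    (k : ℕ) {G : ℤ → ℝ} {A : ℤ → Prop}
    (hA : ∀ s s', ixs c0 σ k s' = ixs c0 σ k s → (A s' ↔ A s))
    (hG : ∀ s, A s → ∀ i, |dot ((gr c0 σ).cube k s) G (a1 c k i)| ≤ wt δ e (cube3 k i.1) i.2)
    (q : ℤ × ℤ × ℤ) (u : Tri) :
    |∑ y ∈ cube3 k q, (if A (el c y) then G (el c y) else 0) * atm u y| ≤
      2 * wt δ e (cube3 k q) u := by
  obtain ⟨m, hm⟩ := two_cells_el (c0 := c0) (σ := σ) hc k q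
  have hw : 0 ≤ wt δ e (cube3 k q) u := wt_nonneg hδ _ _ _
  -- one cell
  have key : ∀ m' : ℤ, |∑ y ∈ cube3 k q, (if ixs c0 σ k (el c y) = m' then
      (if A (el c y) then G (el c y) else 0) * atm u y else 0)| ≤ wt δ e (cube3 k q) u := by
    intro m'
    by_cases hex : ∃ s, ixs c0 σ k s = m' ∧ A s
    · obtain ⟨s, hs, hAs⟩ := hex
      have h1 := hG s hAs (q, u)
      rw [dot_a1] at h1
      refine le_trans (le_of_eq ?_) h1
      congr 1
      refine Finset.sum_congr rfl fun y _ => ?_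
      by_cases hy : ixs c0 σ k (el c y) = m'
      · have h2 : el c y ∈ (gr c0 σ).cube k s := mem_gs.mpr (by rw [hy, hs])
        have h3 : A (el c y) := (hA s (el c y) (by rw [hy, hs])).mpr hAs
        rw [if_pos hy, if_pos h2, if_pos h3]
      · have h2 : el c y ∉ (gr c0 σ).cube k s := fun h => hy (by rw [mem_gs.mp h, hs])
        rw [if_neg hy, if_neg h2]
    · have h1 : ∑ y ∈ cube3 k q, (if ixs c0 σ k (el c y) = m' then
          (if A (el c y) then G (el c y) else 0) * atm u y else 0) = 0 := by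
        refine Finset.sum_eq_zero fun y _ => ?_
        by_cases hy : ixs c0 σ k (el c y) = m'
        · have h3 : ¬ A (el c y) := fun h => hex ⟨el c y, hy, h⟩
          rw [if_pos hy, if_neg h3, zero_mul]
        · rw [if_neg hy]
      rw [h1, abs_zero]; exact hw
  have hsplit : ∑ y ∈ cube3 k q, (if A (el c y) then G (el c y) else 0) * atm u y =
      (∑ y ∈ cube3 k q, (if ixs c0 σ k (el c y) = m then
        (if A (el c y) then G (el c y) else 0) * atm u y else 0)) +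
      (∑ y ∈ cube3 k q, (if ixs c0 σ k (el c y) = m + 1 then
        (if A (el c y) then G (el c y) else 0) * atm u y else 0)) := by
    rw [← Finset.sum_add_distrib]
    refine Finset.sum_congr rfl fun y hy => ?_
    rcases hm y hy with h | h
    · have h' : ixs c0 σ k (el c y) ≠ m + 1 := by omega
      rw [if_pos (c := ixs c0 σ k (el c y) = m) h,
        if_neg (c := ixs c0 σ k (el c y) = m + 1) h', add_zero]
    · have h' : ixs c0 σ k (el c y) ≠ m := by omega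
      rw [if_neg (c := ixs c0 σ k (el c y) = m) h',
        if_pos (c := ixs c0 σ k (el c y) = m + 1) h, zero_add]
  rw [hsplit]
  refine (abs_add_le _ _).trans ?_
  have := key m
  have := key (m + 1)
  linarith

/-- From cubes of scale `k` to cubes of scale `l ≥ k`. -/
theorem cube_unif_coarse {δ e C : ℝ} (hδ : 0 ≤ δ) (h0 : 0 ≤ e) (h1 : e ≤ 1) (hC : 0 ≤ C)
    {k l : ℕ} (hkl : k ≤ l) {φ : ℤ × ℤ × ℤ → ℝ} (u : Tri)
    (h : ∀ q, |∑ y ∈ cube3 k q, φ y * atm u y| ≤ C * wt δ e (cube3 k q) u) (p : ℤ × ℤ × ℤ) :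
    |∑ y ∈ cube3 l p, φ y * atm u y| ≤ C * wt δ e (cube3 l p) u := by
  have h2 : ∀ y ∈ gz.cube l p, |∑ z ∈ gz.cube k y, φ z * atm u z| ≤
      ∑ z ∈ gz.cube k y, C * (δ * (Nm e (cube3 k z) (e12 u.1) * Nm e (cube3 k z) (e13 u.2.1) *
        Nm e (cube3 k z) (e23 u.2.2))) := by
    intro y hy
    refine (h y).trans_eq ?_
    have h3 : ∀ z ∈ gz.cube k y, C * (δ * (Nm e (cube3 k z) (e12 u.1) *
        Nm e (cube3 k z) (e13 u.2.1) * Nm e (cube3 k z) (e23 u.2.2))) =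
        C * (δ * (Nm e (cube3 k y) (e12 u.1) * Nm e (cube3 k y) (e13 u.2.1) *
        Nm e (cube3 k y) (e23 u.2.2))) := by
      intro z hz
      have : cube3 k z = cube3 k y := gz.eq_of_mem k y z hz
      rw [this]
    rw [Finset.sum_congr rfl h3, Finset.sum_const, nsmul_eq_mul]
    unfold wt
    show _ = ((cube3 k y).card : ℝ) * _
    ring
  have h4 : |∑ y ∈ cube3 l p, φ y * atm u y| ≤ ∑ z ∈ gz.cube l p,
      C * (δ * (Nm e (cube3 k z) (e12 u.1) * Nm e (cube3 k z) (e13 u.2.1) *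
        Nm e (cube3 k z) (e23 u.2.2))) := by
    rw [abs_le]
    constructor
    · rw [neg_le]
      have := gz.sum_le_sum_of_cubes hkl p (fun z => -(φ z * atm u z))
        (fun z => C * (δ * (Nm e (cube3 k z) (e12 u.1) * Nm e (cube3 k z) (e13 u.2.1) *
          Nm e (cube3 k z) (e23 u.2.2))))
        (fun y hy => by
          rw [Finset.sum_neg_distrib]
          have := (abs_le.mp (h2 y hy)).1
          linarith)
      rw [Finset.sum_neg_distrib] at this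
      exact this
    · exact gz.sum_le_sum_of_cubes hkl p (fun z => φ z * atm u z) _
        (fun y hy => (abs_le.mp (h2 y hy)).2)
  refine h4.trans ?_
  have h5 := avg_prod_Nm_le hkl h0 h1 u p
  have hc : (0 : ℝ) < (cube3 l p).card := by
    exact_mod_cast Finset.card_pos.mpr ⟨p, gz.mem l p⟩
  rw [← Finset.mul_sum, ← Finset.mul_sum]
  unfold avg at h5
  rw [inv_mul_le_iff₀ hc] at h5
  refine mul_le_mul_of_nonneg_left ?_ hC
  unfold wt
  calc δ * ∑ z ∈ gz.cube l p, _ ≤ δ * _ := mul_le_mul_of_nonneg_left h5 hδ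
    _ = _ := by ring

/-- The one-dimensional system of tests. -/
def sys1 (c0 : ℕ) (σ : ℤ) (c : ℤ × ℤ × ℤ) (hc : csz c ≤ 2 ^ c0) (δ e : ℝ) (hδ : 0 < δ)
    (h0 : 0 ≤ e) (h1 : e ≤ 1) : CSys (gr c0 σ) ((ℤ × ℤ × ℤ) × Tri) where
  a := a1 c
  W := fun k _ i => wt δ e (cube3 k i.1) i.2
  W_nonneg := fun k _ i => wt_nonneg hδ.le e _ _
  nondeg := fun k x => nondeg_a1 hδ h0 h1 c k _
  C := 2
  C_nonneg := by norm_num
  inherit := by
    intro k l hkl x i G hG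
    rw [dot_a1]
    have h2 := cube_unif_coarse (C := 2) hδ.le h0 h1 (by norm_num) hkl
      (φ := fun y => @ite _ (el c y ∈ (gr c0 σ).cube l x) (Classical.propDecidable _)
        (G (el c y)) 0) i.2
      (fun q => cube_unif (c0 := c0) (σ := σ) hc hδ.le k (G := G)
        (A := fun s => s ∈ (gr c0 σ).cube l x)
        (by
          intro s s' hs
          have h3 : s' ∈ (gr c0 σ).cube k s := mem_gs.mpr hs
          have h4 : s' ∈ (gr c0 σ).cube l s := (gr c0 σ).sub_le hkl s h3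
          rw [mem_gs, mem_gs, mem_gs.mp h4])
        (by
          intro s hs i'
          exact hG s hs i') q i.2) i.1
    refine le_trans (le_of_eq ?_) h2
    congr 1
    refine Finset.sum_congr rfl fun y _ => ?_
    by_cases h : el c y ∈ (gr c0 σ).cube l x
    · simp [h]
    · simp [h]

end

end Vale.Agent.P141.PL.H318
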